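import Vale.Agent.P048.Full.NoBig
import Vale.Agent.P048.Cycle.Ports

/-!
Tools for small cycle lengths: separated sets around outside neighbours of a clique, the full
clique, and short paths between predecessors on a cycle through a big clique.
-/

namespace Vale.Agent.P048.Small

open Finset Vale.Agent.P048.Cycle Vale.Agent.P048.Full

variable {V : Type*} {G : SimpleGraph V}

theorem isP_two {a b : V} (h : G.Adj a b) : IsP G [a, b] a b :=
  ⟨by simp [h], by simp [h.ne], rfl, rfl⟩

theorem isP_three {a b c : V} (h₁ : G.Adj a b) (h₂ : G.Adj b c) (hac : a ≠ c) :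
    IsP G [a, b, c] a c :=
  ⟨by simp [h₁, h₂], by simp [h₁.ne, h₂.ne, hac], rfl, rfl⟩

theorem isP_four {a b c d : V} (h₁ : G.Adj a b) (h₂ : G.Adj b c) (h₃ : G.Adj c d) (hac : a ≠ c)
    (hbd : b ≠ d) (had : a ≠ d) : IsP G [a, b, c, d] a d :=
  ⟨by simp [h₁, h₂, h₃], by simp [h₁.ne, h₂.ne, h₃.ne, hac, hbd, had], rfl, rfl⟩

theorem indep_pair {x y : V} [DecidableEq V] (h : ¬G.Adj x y) : Indep G {x, y} := by
  intro a ha b hb
  simp only [mem_insert, mem_singleton] at ha hb
  rcases ha with rfl | rfl <;> rcases hb with rfl | rfl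
  exacts [G.irrefl, h, fun e => h e.symm, G.irrefl]

theorem indep_one (x : V) : Indep G {x} := by
  intro a ha b hb
  rw [mem_singleton] at ha hb
  subst ha; subst hb; exact G.irrefl

variable [DecidableEq V]

/-- A set larger than every clique has two independent vertices. -/
theorem exists_pair {S : Finset V} {c : ℕ} (hc : c < S.card)
    (hS : ∀ C : Finset V, (∀ x ∈ C, ∀ y ∈ C, x ≠ y → G.Adj x y) → C.card ≤ c) :
    ∃ x ∈ S, ∃ y ∈ S, x ≠ y ∧ ¬G.Adj x y := by
  by_contra hno
  simp only [not_exists, not_and, not_not] at hno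
  have := hS S hno
  omega

/-- Pairwise separated independent sets add up. -/
theorem sum_le_al {ι : Type*} [Fintype V] (A : Finset ι) (J : ι → Finset V)
    (hJ : ∀ i ∈ A, Indep G (J i))
    (hsep : ∀ i ∈ A, ∀ j ∈ A, i ≠ j → ∀ x ∈ J i, ∀ y ∈ J j, x ≠ y ∧ ¬G.Adj x y) :
    ∑ i ∈ A, (J i).card ≤ al G univ := by
  classical
  rw [← card_biUnion fun i hi j hj hne => disjoint_left.2 fun x hx hx' =>
    (hsep i hi j hj hne x hx x hx').1 rfl]
  refine le_al (subset_univ _) fun x hx y hy => ?_
  obtain ⟨i, hi, hx⟩ := mem_biUnion.1 hx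
  obtain ⟨j, hj, hy⟩ := mem_biUnion.1 hy
  by_cases e : i = j
  · subst e; exact hJ i hi x hx y hy
  · exact (hsep i hi j hj e x hx y hy).2

variable [Fintype V]

open Classical in
/-- A vertex with its neighbours outside `D`. -/
noncomputable def Tset (G : SimpleGraph V) (D : Finset V) (o : V) : Finset V :=
  insert o (univ.filter fun y => G.Adj o y ∧ y ∉ D)

theorem mem_Tset {D : Finset V} {o x : V} : x ∈ Tset G D o ↔ x = o ∨ G.Adj o x ∧ x ∉ D := by
  classical simp [Tset]

theorem self_mem_Tset {D : Finset V} {o : V} : o ∈ Tset G D o := mem_Tset.2 (Or.inl rfl)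

open Classical in
/-- The neighbours of `o` inside `D`. -/
noncomputable def ins (G : SimpleGraph V) (D : Finset V) (o : V) : Finset V :=
  D.filter fun q => G.Adj o q

theorem mem_ins {D : Finset V} {o q : V} : q ∈ ins G D o ↔ q ∈ D ∧ G.Adj o q := by
  classical simp [ins]

open Classical in
theorem card_Tset {k : ℕ} (hdeg : ∀ x, k ≤ degIn G univ x) (D : Finset V) (o : V) :
    k + 1 ≤ (Tset G D o).card + (ins G D o).card := by
  have h1 : degIn G univ o ≤
      ((univ.filter fun y => G.Adj o y ∧ y ∉ D) ∪ ins G D o).card := by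
    refine card_le_card fun y hy => ?_
    simp only [mem_filter, mem_univ, true_and] at hy
    by_cases hyD : y ∈ D <;> simp [mem_ins, hy, hyD]
  have h2 := card_union_le (univ.filter fun y => G.Adj o y ∧ y ∉ D) (ins G D o)
  have := hdeg o
  rw [Tset, card_insert_of_notMem (by simp)]
  omega

omit [Fintype V] [DecidableEq V] in
/-- No outside path with `g` vertices joins `p` and `q`. -/
def NoEar (G : SimpleGraph V) (D : Finset V) (p q : V) (g : ℕ) : Prop :=
  ∀ (l : List V) (u v : V), IsP G l u v → (∀ x ∈ l, x ∉ D) → l.length = g → G.Adj p u →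
    G.Adj v q → False

/-- Neighbourhoods of two nonadjacent outside vertices with different roots are separated. -/
theorem Tset_sep {D : Finset V} {p q o o' : V} (h3 : NoEar G D p q 3) (h4 : NoEar G D p q 4)
    (ho : o ∉ D) (ho' : o' ∉ D) (hp : G.Adj p o) (hq : G.Adj o' q) (hne : o ≠ o')
    (hn : ¬G.Adj o o') : ∀ x ∈ Tset G D o, ∀ y ∈ Tset G D o', x ≠ y ∧ ¬G.Adj x y := by
  intro x hx y hy
  rcases mem_Tset.1 hx with rfl | ⟨hx1, hxD⟩ <;> rcases mem_Tset.1 hy with rfl | ⟨hy1, hyD⟩
  · exact ⟨hne, hn⟩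
  · refine ⟨fun e => hn (e ▸ hy1.symm), fun e => ?_⟩
    exact h3 _ _ _ (isP_three e hy1.symm hne) (by simp [ho, hyD, ho']) rfl hp hq
  · refine ⟨fun e => hn (e ▸ hx1), fun e => ?_⟩
    exact h3 _ _ _ (isP_three hx1 e hne) (by simp [ho, hxD, ho']) rfl hp hq
  · refine ⟨fun e => ?_, fun e => ?_⟩
    · subst e
      exact h3 _ _ _ (isP_three hx1 hy1.symm hne) (by simp [ho, hxD, ho']) rfl hp hq
    · exact h4 _ _ _ (isP_four hx1 e hy1.symm (fun e' => hn (e' ▸ hy1.symm))
        (fun e' => hn (e' ▸ hx1)) hne) (by simp [ho, hxD, hyD, ho']) rfl hp hq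

omit [Fintype V] in
/-- Paths of admissible length between vertices of a clique close a `(k+1)`-cycle. -/
theorem noEar_of_clique {k g : ℕ} {Q D : Finset V} (hC : ¬HasCyc G (k + 1))
    (hQ : ∀ x ∈ Q, ∀ y ∈ Q, x ≠ y → G.Adj x y) (hD : Q ⊆ D) {p q : V} (hp : p ∈ Q) (hq : q ∈ Q)
    (hne : p ≠ q) (h1 : g + 1 ≤ k) (h2 : k + 1 ≤ g + Q.card) : NoEar G D p q g :=
  fun _ _ _ hl hlD hlen hpu hvq => hC (port_close hQ hl (fun x hx hxQ => hlD x hx (hD hxQ)) hp hq
    hne hpu hvq (by omega) (by omega))

/-- A clique vertex has many neighbours outside the clique. -/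
theorem card_out {k : ℕ} (hdeg : ∀ x, k ≤ degIn G univ x) {Q : Finset V}
    [DecidableRel G.Adj] {q : V} (hq : q ∈ Q) :
    k + 1 ≤ (univ.filter fun y => G.Adj q y ∧ y ∉ Q).card + Q.card := by
  classical
  have h1 : degIn G univ q ≤ ((univ.filter fun y => G.Adj q y ∧ y ∉ Q) ∪ Q.erase q).card := by
    refine card_le_card fun y hy => ?_
    simp only [mem_filter, mem_univ, true_and] at hy
    by_cases hyQ : y ∈ Q <;> simp [hy, hyQ, hy.ne.symm]
  have h2 := card_union_le (univ.filter fun y => G.Adj q y ∧ y ∉ Q) (Q.erase q)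
  have := hdeg q
  have := card_pos.2 ⟨q, hq⟩
  rw [card_erase_of_mem hq] at h2
  omega

variable {k r : ℕ}

/-- No clique has `k` vertices. -/
theorem no_full_clique (h : FCtx G k r) (hk : 4 ≤ k) {Q : Finset V}
    (hQ : ∀ x ∈ Q, ∀ y ∈ Q, x ≠ y → G.Adj x y) (hc : Q.card = k) : False := by
  classical
  have hex : ∀ q, ∃ o, q ∈ Q → G.Adj q o ∧ o ∉ Q := fun q => by
    by_cases hq : q ∈ Q
    · obtain ⟨o, ho⟩ := card_pos.1 (show 0 < (univ.filter fun y => G.Adj q y ∧ y ∉ Q).card by
        have := card_out h.degree hq; omega)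
      exact ⟨o, fun _ => by simpa using ho⟩
    · exact ⟨q, fun e => absurd e hq⟩
  choose o ho using hex
  have ear : ∀ g, 1 ≤ g → g + 1 ≤ k → ∀ p ∈ Q, ∀ q ∈ Q, p ≠ q → NoEar G Q p q g :=
    fun g h1 h2 p hp q hq hne => noEar_of_clique h.hC hQ subset_rfl hp hq hne h2 (by omega)
  have oinj : ∀ p ∈ Q, ∀ q ∈ Q, o p = o q → p = q := fun p hp q hq e => by
    by_contra hne
    exact ear 1 le_rfl (by omega) p hp q hq hne [o p] _ _ (isP_singleton _)
      (by simp [(ho p hp).2]) rfl (ho p hp).1 (e ▸ (ho q hq).1.symm)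
  have oind : ∀ p ∈ Q, ∀ q ∈ Q, ¬G.Adj (o p) (o q) := fun p hp q hq e =>
    ear 2 (by omega) (by omega) p hp q hq (fun e' => e.ne (congrArg o e')) _ _ _ (isP_two e)
      (by simp [(ho p hp).2, (ho q hq).2]) rfl (ho p hp).1 (ho q hq).1.symm
  obtain ⟨q₁, hq₁⟩ := card_pos.1 (show 0 < Q.card by omega)
  set O := (Q.erase q₁).image o with hO
  have hOc : O.card + 1 = k := by
    rw [hO, card_image_of_injOn fun a ha b hb => oinj a (mem_of_mem_erase ha) b (mem_of_mem_erase hb),
      card_erase_of_mem hq₁]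
    omega
  obtain ⟨a1, a2⟩ := ho q₁ hq₁
  set S := univ.filter fun y => G.Adj (o q₁) y ∧ y ∉ Q with hS
  have hport : (ins G Q (o q₁)).card ≤ 1 := card_le_one.2 fun a ha b hb => by
    rw [mem_ins] at ha hb
    by_contra hne
    exact ear 1 le_rfl (by omega) a ha.1 b hb.1 hne [o q₁] _ _ (isP_singleton _) (by simp [a2]) rfl
      ha.2.symm hb.2
  have hSc : k ≤ S.card + 1 := by
    have := card_Tset h.degree Q (o q₁)
    rw [show Tset G Q (o q₁) = insert (o q₁) S from by ext; simp [mem_Tset, hS],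
      card_insert_of_notMem (by simp [hS])] at this
    omega
  have hfar : ∀ y ∈ S, ∀ p ∈ Q.erase q₁, y ≠ o p ∧ ¬G.Adj y (o p) := by
    intro y hy p hp
    simp only [hS, mem_filter, mem_univ, true_and] at hy
    obtain ⟨hpne, hpQ⟩ := mem_erase.1 hp
    refine ⟨fun e => oind q₁ hq₁ p hpQ (e ▸ hy.1), fun e => ?_⟩
    exact ear 3 (by omega) (by omega) q₁ hq₁ p hpQ hpne.symm _ _ _
      (isP_three hy.1 e fun e' => hpne.symm (oinj q₁ hq₁ p hpQ e'))
      (by simp [a2, hy.2, (ho p hpQ).2]) rfl a1 (ho p hpQ).1.symm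
  have finish : ∀ J : Finset V, Indep G J → 2 ≤ J.card →
      (∀ x ∈ J, ∀ p ∈ Q.erase q₁, x ≠ o p ∧ ¬G.Adj x (o p)) → False := by
    intro J hJ hJ2 hsep
    have hi : Indep G (J ∪ O) := by
      intro a ha b hb
      rw [mem_union, hO, mem_image] at ha hb
      rcases ha with ha | ⟨p, hp, rfl⟩ <;> rcases hb with hb | ⟨q, hq, rfl⟩
      · exact hJ a ha b hb
      · exact (hsep a ha q hq).2
      · exact fun e => (hsep b hb p hp).2 e.symm
      · exact oind p (mem_of_mem_erase hp) q (mem_of_mem_erase hq)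
    have := le_al (G := G) (subset_univ _) hi
    rw [card_union_of_disjoint (disjoint_left.2 fun x hx hx' => by
      obtain ⟨p, hp, rfl⟩ := mem_image.1 hx'
      exact (hsep _ hx p hp).1 rfl)] at this
    have := h.hal
    have := h.hk
    omega
  by_cases hy : ∃ y ∈ S, ¬G.Adj q₁ y
  · obtain ⟨y, hy, hny⟩ := hy
    have hyQ : y ∉ Q := (mem_filter.1 hy).2.2
    refine finish {q₁, y} (indep_pair hny) (by rw [card_pair (show q₁ ≠ y from fun e => hyQ (e ▸ hq₁))]) ?_
    intro x hx p hp
    rw [mem_insert, mem_singleton] at hx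
    rcases hx with rfl | rfl
    · obtain ⟨hpne, hpQ⟩ := mem_erase.1 hp
      refine ⟨fun e => (ho p hpQ).2 (e ▸ hq₁), fun e => ?_⟩
      exact ear 1 le_rfl (by omega) x hq₁ p hpQ hpne.symm [o p] _ _ (isP_singleton _)
        (by simp [(ho p hpQ).2]) rfl e (ho p hpQ).1.symm
    · exact hfar x hy p hp
  · simp only [not_exists, not_and, not_not] at hy
    by_cases hcl : ∃ x ∈ S, ∃ y ∈ S, x ≠ y ∧ ¬G.Adj x y
    · obtain ⟨x, hx, y, hy', hne, hn⟩ := hcl
      refine finish {x, y} (indep_pair hn) (by rw [card_pair hne]) fun z hz p hp => ?_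
      rw [mem_insert, mem_singleton] at hz
      rcases hz with rfl | rfl
      exacts [hfar z hx p hp, hfar z hy' p hp]
    · simp only [not_exists, not_and, not_not] at hcl
      refine h.hC (clique_cyc (A := insert q₁ (insert (o q₁) S)) (L := k + 1) ?_ (by omega) ?_)
      · intro a ha b hb hab
        have hS1 : ∀ z ∈ S, G.Adj (o q₁) z := fun z hz => (mem_filter.1 hz).2.1
        simp only [mem_insert] at ha hb
        rcases ha with rfl | rfl | ha <;> rcases hb with rfl | rfl | hb
        all_goals first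
          | exact absurd rfl hab
          | exact a1
          | exact a1.symm
          | exact hy _ hb
          | exact (hy _ ha).symm
          | exact hS1 _ hb
          | exact (hS1 _ ha).symm
          | exact hcl a ha b hb hab
      · rw [card_insert_of_notMem (by
          simp only [mem_insert, hS, mem_filter, mem_univ, true_and, not_or]
          exact ⟨fun e => a2 (e ▸ hq₁), fun e => e.2 hq₁⟩),
          card_insert_of_notMem (by simp [hS])]
        omega

omit [Fintype V] in
/-- For `|Q| + 2 ≥ k` no long conflict path exists. -/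
theorem noLong_of_close {f : ℕ → V} {L : ℕ} {Q : Finset V} (S : Setup G k Q f L)
    (hkt : k ≤ Q.card + 2) : NoLong G Q f L := by
  classical
  intro R o o' i j hR hRf hlen hij hj hi1 hj1 h1 h2
  have hL := S.hf.pos
  have hex : ∀ n, f (n + 1) ∈ Q → ∃ s, s < L ∧ f (n + L - s) ∈ Q ∧
      ∀ e, e < s → f (n + L - e) ∉ Q := by
    intro n hn
    have h0 : ∃ s, f (n + L - s) ∈ Q := ⟨L - 1, by rwa [show n + L - (L - 1) = n + 1 by omega]⟩
    refine ⟨Nat.find h0, ?_, Nat.find_spec h0, fun e he => Nat.find_min h0 he⟩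
    have : Nat.find h0 ≤ L - 1 := Nat.find_le (by rwa [show n + L - (L - 1) = n + 1 by omega])
    omega
  obtain ⟨sa, hsa, hqa, hna⟩ := hex i hi1
  obtain ⟨sb, hsb, hqb, hnb⟩ := hex j hj1
  have key : ∀ n m s x y, n < L → m < L → n ≠ m → f (n + 1) ∈ Q → s < L →
      (∀ e, e < s → f (m + L - e) ∉ Q) → x ≤ y → y ≤ s → f (n + L - x) ≠ f (m + L - y) := by
    intro n m s x y hn hm hnm hn1 hs hmin hxy hys e
    have hh := S.hf.eq_mod e
    have hc : ∀ c, f (n + L - x + c) = f (m + L - y + c) := fun c => by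
      rw [← S.hf.mod_succ (n + L - x) c, hh, S.hf.mod_succ]
    rcases hxy.eq_or_lt with rfl | hlt
    · have := hc x
      rw [Nat.sub_add_cancel (by omega), Nat.sub_add_cancel (by omega), S.hf.per, S.hf.per] at this
      exact hnm (S.hf.inj _ _ hn hm this)
    · have := hc (x + 1)
      rw [show n + L - x + (x + 1) = n + 1 + L by omega, S.hf.per,
        show m + L - y + (x + 1) = m + L - (y - x - 1) by omega] at this
      exact hmin _ (by omega) (this ▸ hn1)
  have hdis : ∀ x y, x ≤ sa → y ≤ sb → f (i + L - x) ≠ f (j + L - y) := by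
    intro x y hx hy
    rcases le_total x y with hh | hh
    · exact key i j sb x y (by omega) hj (by omega) hi1 hsb hnb hh hy
    · exact (key j i sa y x hj (by omega) (by omega) hj1 hsa hna hh hx).symm
  have hpA := isP_arc S.hf.per S.hf.inj S.hf.adj (a := i + L - sa) (b := i + L) (by omega) (by omega)
  have hpB := (isP_arc S.hf.per S.hf.inj S.hf.adj (a := j + L - sb) (b := j + L) (by omega)
    (by omega)).reverse
  rw [S.hf.per] at hpA hpB
  have hsum : sa + sb + Q.card ≤ L := by
    have hA : ((range sa).image fun e => f (i + L - e)).card = sa := by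
      rw [card_image_of_injOn, card_range]
      intro a ha b hb e
      simp only [coe_range, Set.mem_Iio] at ha hb
      have := inj_window S.hf.per S.hf.inj e (by omega) (by omega)
      omega
    have hB : ((range sb).image fun e => f (j + L - e)).card = sb := by
      rw [card_image_of_injOn, card_range]
      intro a ha b hb e
      simp only [coe_range, Set.mem_Iio] at ha hb
      have := inj_window S.hf.per S.hf.inj e (by omega) (by omega)
      omega
    have hsub : ((range sa).image fun e => f (i + L - e)) ∪ ((range sb).image fun e => f (j + L - e))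
        ∪ Q ⊆ img f L := by
      refine union_subset (union_subset ?_ ?_) S.hQ <;>
        · intro x hx; obtain ⟨e, -, rfl⟩ := mem_image.1 hx; exact mem_img S.hf _
    have := card_le_card hsub
    rw [card_img S.hf, card_union_of_disjoint, card_union_of_disjoint, hA, hB] at this
    · exact this
    · refine disjoint_left.2 fun x hx hx' => ?_
      obtain ⟨a, ha, rfl⟩ := mem_image.1 hx
      obtain ⟨b, hb, e⟩ := mem_image.1 hx'
      rw [mem_range] at ha hb
      exact hdis a b ha.le hb.le e.symm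
    · refine disjoint_left.2 fun x hx hx' => ?_
      rcases mem_union.1 hx with hx | hx <;> obtain ⟨a, ha, rfl⟩ := mem_image.1 hx <;>
        rw [mem_range] at ha
      exacts [hna a ha hx', hnb a ha hx']
  have p1 := hpA.append hR h1 fun x hx hx' => by
    obtain ⟨c, -, -, rfl⟩ := mem_sg.1 hx
    exact hRf _ hx' (mem_img S.hf c)
  have p2 := p1.append hpB h2 fun x hx hx' => by
    rw [List.mem_reverse] at hx'
    obtain ⟨d, hd1, hd2, rfl⟩ := mem_sg.1 hx'
    rcases List.mem_append.1 hx with hx | hx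
    · obtain ⟨c, hc1, hc2, e⟩ := mem_sg.1 hx
      refine hdis (i + L - c) (j + L - d) (by omega) (by omega) ?_
      rwa [Nat.sub_sub_self hc2, Nat.sub_sub_self hd2]
    · exact hRf _ hx (mem_img S.hf d)
  refine S.hC (cyc_close S.hQc p2 hqa hqb (hdis sa sb le_rfl le_rfl) (fun x hx hxQ => ?_) ?_ ?_)
  · simp only [List.mem_append, List.mem_reverse] at hx
    rcases hx with (hx | hx) | hx
    · obtain ⟨c, hc1, hc2, rfl⟩ := mem_sg.1 hx
      by_cases hc : c = i + L - sa
      · exact Or.inl (by rw [hc])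
      · exact absurd hxQ (by
          have := hna (i + L - c) (by omega)
          rwa [Nat.sub_sub_self hc2] at this)
    · exact absurd (S.hQ hxQ) (hRf x hx)
    · obtain ⟨c, hc1, hc2, rfl⟩ := mem_sg.1 hx
      by_cases hc : c = j + L - sb
      · exact Or.inr (by rw [hc])
      · exact absurd hxQ (by
          have := hnb (j + L - c) (by omega)
          rwa [Nat.sub_sub_self hc2] at this)
  · simp only [List.length_append, List.length_reverse, length_sg]
    have := S.hLk
    have := S.hk
    rcases hlen with h' | h' <;> omega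
  · simp only [List.length_append, List.length_reverse, length_sg]
    rcases hlen with h' | h' <;> omega

/-- No clique of at least five vertices reaches `k - 2` for `k ≤ 7`. -/
theorem no_clique_five (h : FCtx G k r) (hk : 5 ≤ k) (hk7 : k ≤ 7) {C : Finset V}
    (hC : ∀ x ∈ C, ∀ y ∈ C, x ≠ y → G.Adj x y) : C.card ≤ 4 := by
  classical
  by_contra hlt
  obtain ⟨Q, hQ, hmax⟩ := exists_max_image
    ((univ : Finset V).powerset.filter fun S => ∀ x ∈ S, ∀ y ∈ S, x ≠ y → G.Adj x y) Finset.card
    ⟨C, by simpa using hC⟩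
  simp only [mem_filter, mem_powerset, subset_univ, true_and] at hQ hmax
  have := hmax C hC
  rcases Nat.lt_or_ge Q.card k with hlt' | hge
  · obtain ⟨f, L, hf, hfQ, hLk, hfmax⟩ := exists_longest_through (by omega) h.hC hQ (by omega)
    have S := setup_of h.hC hQ hmax (by omega) (by omega) hf hfQ hLk hfmax
    exact S.false_of h.degree (h.hal.trans h.hk) (noLong_of_close S (by omega))
  · obtain ⟨K, hK, hKc⟩ := exists_subset_card_eq hge
    exact no_full_clique h (by omega) (fun x hx y hy => hQ x (hK hx) y (hK hy)) hKc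

end Vale.Agent.P048.Small
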