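import Vale.Agent.P048.Small.Main

/-!
The pairs at which the cycle-complete Ramsey identity holds.
-/

namespace Vale.Agent.P048.Small

open Finset

/-- The five-cycle shows that the identity fails at `m = n = 3`. -/
theorem not_ramsey_three : ¬IsLeast {N : ℕ | ∀ G : SimpleGraph (Fin N),
      (SimpleGraph.cycleGraph 3).IsContained G ∨ ¬G.IndepSetFree 3} 5 := by
  intro h
  rcases h.1 (SimpleGraph.cycleGraph 5) with ⟨⟨f, hf⟩⟩ | h'
  · exact (by decide : ∀ a b c : Fin 5, (SimpleGraph.cycleGraph 5).Adj a b →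
      (SimpleGraph.cycleGraph 5).Adj b c → ¬(SimpleGraph.cycleGraph 5).Adj c a) (f 0) (f 1) (f 2)
      (f.map_adj (by decide)) (f.map_adj (by decide)) (f.map_adj (by decide))
  · refine h' fun s hs => ?_
    rw [SimpleGraph.isNIndepSet_iff] at hs
    obtain ⟨a, b, c, hab, hac, hbc, rfl⟩ := card_eq_three.1 hs.2
    have key : ∀ a b c : Fin 5, a ≠ b → a ≠ c → b ≠ c → (SimpleGraph.cycleGraph 5).Adj a b ∨
        (SimpleGraph.cycleGraph 5).Adj a c ∨ (SimpleGraph.cycleGraph 5).Adj b c := by decide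
    have h1 := hs.1
    rcases key a b c hab hac hbc with e | e | e
    exacts [h1 (by simp) (by simp) hab e, h1 (by simp) (by simp) hac e, h1 (by simp) (by simp) hbc e]

/-- The identity holds for `3 ≤ n ≤ m` exactly when `(m, n) ≠ (3, 3)`. -/
theorem ramsey_iff {m n : ℕ} (hn : 3 ≤ n) (hnm : n ≤ m) :
    IsLeast {N : ℕ | ∀ G : SimpleGraph (Fin N),
      (SimpleGraph.cycleGraph m).IsContained G ∨ ¬G.IndepSetFree n} ((m - 1) * (n - 1) + 1) ↔
    ¬(m = 3 ∧ n = 3) := by
  refine ⟨fun h hmn => ?_, ramsey_all hn hnm⟩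
  obtain ⟨rfl, rfl⟩ := hmn
  exact not_ramsey_three h

end Vale.Agent.P048.Small
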