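import Vale.Agent.P048.Small.Ear

/-!
Counting independent vertices from outside neighbours of a small dense set.
-/

namespace Vale.Agent.P048.Small

open Finset Vale.Agent.P048.Cycle Vale.Agent.P048.Full

variable {V : Type*} [DecidableEq V] {G : SimpleGraph V} {k r : ℕ}

/-- An explicit list of distinct vertices, cyclically adjacent, is a cycle. -/
theorem no_list (hC : ¬HasCyc G (k + 1)) {l : List V} {u v : V} (hc : l.IsChain G.Adj)
    (hn : l.Nodup) (hu : l.head? = some u) (hv : l.getLast? = some v) (hvu : G.Adj v u)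
    (hl : l.length = k + 1) : False :=
  hC ⟨l, u, v, ⟨hc, hn, hu, hv⟩, hvu, hl⟩

theorem NoEar.mono {D D' : Finset V} {p q : V} {g : ℕ} (h : NoEar G D p q g) (hD : D ⊆ D') :
    NoEar G D' p q g :=
  fun l u v hl hlD hlen hp hq => h l u v hl (fun x hx hxD => hlD x hx (hD hxD)) hlen hp hq

variable [Fintype V]

open Classical in
/-- The neighbours of `q` outside `D`. -/
noncomputable def out (G : SimpleGraph V) (D : Finset V) (q : V) : Finset V :=
  univ.filter fun y => G.Adj q y ∧ y ∉ D

theorem mem_out {D : Finset V} {q y : V} : y ∈ out G D q ↔ G.Adj q y ∧ y ∉ D := by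
  classical simp [out]

open Classical in
theorem card_out_ins (hdeg : ∀ x, k ≤ degIn G univ x) (D : Finset V) (q : V) :
    k ≤ (out G D q).card + (ins G D q).card := by
  refine (hdeg q).trans ((card_le_card fun y hy => ?_).trans (card_union_le _ _))
  simp only [mem_filter, mem_univ, true_and] at hy
  by_cases hyD : y ∈ D <;> simp [mem_out, mem_ins, hy, hyD]

theorem ins_clique_le {Q : Finset V} {q : V} (hq : q ∈ Q) : (ins G Q q).card + 1 ≤ Q.card := by
  have : ins G Q q ⊆ Q.erase q := fun x hx =>
    mem_erase.2 ⟨(mem_ins.1 hx).2.ne.symm, (mem_ins.1 hx).1⟩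
  have := card_le_card this
  have := card_pos.2 ⟨q, hq⟩
  rw [card_erase_of_mem hq] at *
  omega

open Classical in
/-- The outside vertices with at least two neighbours in `D`. -/
noncomputable def multi (G : SimpleGraph V) (D : Finset V) : Finset V :=
  univ.filter fun z => z ∉ D ∧ 2 ≤ (ins G D z).card

theorem mem_multi {D : Finset V} {z : V} : z ∈ multi G D ↔ z ∉ D ∧ 2 ≤ (ins G D z).card := by
  classical simp [multi]

open Classical in
/-- The outside vertices whose only neighbour in `D` is `q`. -/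
noncomputable def single (G : SimpleGraph V) (D : Finset V) (q : V) : Finset V :=
  (out G D q).filter fun z => (ins G D z).card ≤ 1

theorem mem_single {D : Finset V} {q z : V} :
    z ∈ single G D q ↔ G.Adj q z ∧ z ∉ D ∧ (ins G D z).card ≤ 1 := by
  classical simp [single, mem_out, and_assoc]

theorem single_eq {D : Finset V} {p q z : V} (hz : z ∈ single G D q) (hq : q ∈ D) (hp : p ∈ D)
    (hzp : G.Adj z p) : p = q := by
  obtain ⟨h1, -, h3⟩ := mem_single.1 hz
  exact card_le_one.1 h3 p (mem_ins.2 ⟨hp, hzp⟩) q (mem_ins.2 ⟨hq, h1.symm⟩)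

theorem single_disjoint {D : Finset V} {p q : V} (hp : p ∈ D) (hq : q ∈ D) (hne : p ≠ q) :
    Disjoint (single G D p) (single G D q) :=
  disjoint_left.2 fun _ hz hz' => hne (single_eq hz' hq hp (mem_single.1 hz).1.symm)

theorem out_card_le {D : Finset V} {q : V} :
    (out G D q).card ≤ (single G D q).card + (multi G D).card := by
  refine (card_le_card fun z hz => ?_).trans (card_union_le _ _)
  obtain ⟨h1, h2⟩ := mem_out.1 hz
  rw [mem_union, mem_single, mem_multi]
  rcases Nat.lt_or_ge (ins G D z).card 2 with h | h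
  · exact Or.inl ⟨h1, h2, by omega⟩
  · exact Or.inr ⟨h2, h⟩

/-- Separated outside vertices give independent vertices, two for each with few neighbours in
`D`. -/
theorem weigh (hdeg : ∀ x, k ≤ degIn G univ x)
    (hcl : ∀ C : Finset V, (∀ x ∈ C, ∀ y ∈ C, x ≠ y → G.Adj x y) → C.card ≤ 4)
    {D : Finset V} (W S : Finset V) (hS : S ⊆ W) (hW : ∀ u ∈ W, u ∉ D)
    (hsep : ∀ u ∈ W, ∀ w ∈ W, u ≠ w → ¬G.Adj u w ∧ ∃ p q, NoEar G D p q 3 ∧ NoEar G D p q 4 ∧
      G.Adj p u ∧ G.Adj w q)
    (hp : ∀ u ∈ S, (ins G D u).card + 4 ≤ k) : W.card + S.card ≤ al G univ := by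
  classical
  have hex : ∀ u ∈ W, ∃ J : Finset V, J ⊆ Tset G D u ∧ Indep G J ∧
      1 + (if u ∈ S then 1 else 0) ≤ J.card := by
    intro u hu
    by_cases huS : u ∈ S
    · obtain ⟨x, hx, y, hy, hne, hn⟩ := exists_pair (S := Tset G D u) (c := 4) (by
        have := card_Tset hdeg D u
        have := hp u huS
        omega) hcl
      exact ⟨{x, y}, by simp [insert_subset_iff, hx, hy], indep_pair hn,
        by simp [huS, card_pair hne]⟩
    · exact ⟨{u}, by simp [self_mem_Tset], indep_one u, by simp [huS]⟩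
  choose J hJT hJi hJc using hex
  let K : V → Finset V := fun u => if h : u ∈ W then J u h else ∅
  have hKe : ∀ u (h : u ∈ W), K u = J u h := fun u h => dif_pos h
  have h1 := sum_le_al (G := G) W K (fun u hu => by rw [hKe u hu]; exact hJi u hu)
    (fun u hu w hw hne x hx y hy => by
      obtain ⟨hn, p, q, h3, h4, hpu, hwq⟩ := hsep u hu w hw hne
      rw [hKe u hu] at hx
      rw [hKe w hw] at hy
      exact Tset_sep h3 h4 (hW u hu) (hW w hw) hpu hwq hne hn x (hJT u hu hx) y (hJT w hw hy))
  refine le_trans ?_ h1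
  calc W.card + S.card = ∑ u ∈ W, (1 + if u ∈ S then 1 else 0) := by
        rw [sum_add_distrib, sum_ite_mem, inter_eq_right.2 hS]; simp
    _ ≤ ∑ u ∈ W, (K u).card := sum_le_sum fun u hu => by rw [hKe u hu]; exact hJc u hu

end Vale.Agent.P048.Small
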