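import Vale.Agent.P048.Small.Layers
import Vale.Agent.P048.Small.Weigh

/-!
The cases `k = 3` and `k = 4`.
-/

namespace Vale.Agent.P048.Small

open Finset Vale.Agent.P048.Cycle Vale.Agent.P048.Full

variable {V : Type*} [DecidableEq V] {G : SimpleGraph V}

theorem degIn_of_eq {S : Finset V} {x : V} {T : Finset V}
    (h : ∀ y, y ∈ T ↔ y ∈ S ∧ G.Adj x y) : degIn G S x = T.card := by
  classical
  unfold degIn
  exact congrArg card (by ext y; simp [h])

/-- A triangle-free set without paths on four vertices has at most two vertices per independent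
one, strictly unless it is a matching. -/
theorem star_bound (S : Finset V) :
    (∀ a ∈ S, ∀ b ∈ S, ∀ c ∈ S, G.Adj a b → G.Adj b c → ¬G.Adj a c) →
    (∀ a ∈ S, ∀ b ∈ S, ∀ c ∈ S, ∀ d ∈ S, G.Adj a b → G.Adj b c → G.Adj c d → a ≠ c → b ≠ d →
      a ≠ d → False) →
    S.card ≤ 2 * al G S ∧ (2 * al G S ≤ S.card → ∀ x ∈ S, ∃ y ∈ S, G.Adj x y ∧
      ∀ z ∈ S, G.Adj x z → z = y) := by
  classical
  induction S using Finset.strongInduction with
  | _ S ih =>
  intro htri hp4
  have gain : ∀ (J R : Finset V), R.Nonempty → R ⊆ S → J ⊆ R → Indep G J →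
      (∀ x ∈ S \ R, ∀ j ∈ J, ¬G.Adj j x) → (S \ R).card ≤ 2 * al G (S \ R) ∧
      J.card + al G (S \ R) ≤ al G S := by
    intro J R hR hRS hJR hJ hJn
    refine ⟨(ih _ (sdiff_ssubset hRS hR) (fun a ha b hb c hc => htri a (mem_sdiff.1 ha).1 b
      (mem_sdiff.1 hb).1 c (mem_sdiff.1 hc).1) fun a ha b hb c hc d hd => hp4 a (mem_sdiff.1 ha).1 b
      (mem_sdiff.1 hb).1 c (mem_sdiff.1 hc).1 d (mem_sdiff.1 hd).1).1, ?_⟩
    obtain ⟨K, k1, k2, k3⟩ := exists_al G (S \ R)
    have := le_al (G := G) (S := S) (J := J ∪ K)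
      (union_subset (hJR.trans hRS) (k1.trans sdiff_subset)) (by
      intro a ha b hb
      rw [mem_union] at ha hb
      rcases ha with ha | ha <;> rcases hb with hb | hb
      exacts [hJ a ha b hb, hJn b (k1 hb) a ha, fun e => hJn a (k1 ha) b hb e.symm, k2 a ha b hb])
    rw [card_union_of_disjoint (disjoint_left.2 fun x hx hx' => (mem_sdiff.1 (k1 hx')).2 (hJR hx))]
      at this
    omega
  have leaf : ∀ x ∈ S, ∀ y ∈ S, G.Adj x y → (∀ z ∈ S, G.Adj x z → z = y) ∨
      (∀ z ∈ S, G.Adj y z → z = x) := by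
    intro x hx y hy hxy
    by_contra hc
    simp only [not_or, not_forall] at hc
    obtain ⟨⟨x', hx', e1, n1⟩, y', hy', e2, n2⟩ := hc
    refine hp4 x' hx' x hx y hy y' hy' e1.symm hxy e2 n1 (Ne.symm n2) fun e => ?_
    subst e
    exact htri x' hx' x hx y hy e1.symm hxy e2.symm
  by_cases hstrict : ∃ x ∈ S, ¬∃ y ∈ S, G.Adj x y ∧ ∀ z ∈ S, G.Adj x z → z = y
  · obtain ⟨x, hx, hxno⟩ := hstrict
    suffices S.card + 1 ≤ 2 * al G S by exact ⟨by omega, fun _ => by omega⟩
    by_cases hiso : ∀ y ∈ S, ¬G.Adj x y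
    · obtain ⟨h1, h2⟩ := gain {x} {x} (singleton_nonempty x) (by simpa using hx) subset_rfl
        (indep_one x) (fun z hz j hj => by
          rw [mem_singleton] at hj; subst hj
          exact hiso z (mem_sdiff.1 hz).1)
      rw [card_singleton] at h2
      rw [card_sdiff_of_subset (by simpa using hx), card_singleton] at h1
      omega
    simp only [not_forall, not_not] at hiso
    obtain ⟨y, hy, hxy⟩ := hiso
    obtain ⟨z, hz, hxz, hzy⟩ : ∃ z ∈ S, G.Adj x z ∧ z ≠ y := by
      by_contra hc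
      simp only [not_exists, not_and, not_not, ne_eq] at hc
      exact hxno ⟨y, hy, hxy, hc⟩
    have hl : ∀ w ∈ S, G.Adj x w → ∀ u ∈ S, G.Adj w u → u = x := by
      intro w hw hxw
      refine (leaf x hx w hw hxw).resolve_left fun h' => ?_
      exact hzy ((h' z hz hxz).trans (h' y hy hxy).symm)
    have hyz : ¬G.Adj y z := fun e => hxz.ne (hl y hy hxy z hz e).symm
    obtain ⟨h1, h2⟩ := gain {y, z} {x, y, z} ⟨x, by simp⟩ (by simp [insert_subset_iff, hx, hy, hz])
      (by simp) (indep_pair hyz) (fun w hw j hj e => by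
        simp only [mem_sdiff, mem_insert, mem_singleton, not_or] at hw
        simp only [mem_insert, mem_singleton] at hj
        rcases hj with rfl | rfl
        exacts [hw.2.1 (hl j hy hxy w hw.1 e), hw.2.1 (hl j hz hxz w hw.1 e)])
    rw [card_pair hzy.symm] at h2
    rw [card_sdiff_of_subset (by simp [insert_subset_iff, hx, hy, hz]),
      card_insert_of_notMem (by simp [hxy.ne, hxz.ne]), card_pair hzy.symm] at h1
    omega
  replace hstrict : ∀ x ∈ S, ∃ y ∈ S, G.Adj x y ∧ ∀ z ∈ S, G.Adj x z → z = y :=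
    fun x hx => by_contra fun hno => hstrict ⟨x, hx, hno⟩
  refine ⟨?_, fun _ => hstrict⟩
  rcases S.eq_empty_or_nonempty with rfl | ⟨x, hx⟩
  · simp
  obtain ⟨y, hy, hxy, honly⟩ := hstrict x hx
  obtain ⟨h1, h2⟩ := gain {x} {x, y} ⟨x, by simp⟩ (by simp [insert_subset_iff, hx, hy]) (by simp)
    (indep_one x) (fun z hz j hj e => by
      rw [mem_singleton] at hj; subst hj
      simp only [mem_sdiff, mem_insert, mem_singleton, not_or] at hz
      exact hz.2.2 (honly z hz.1 e))
  rw [card_singleton] at h2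
  rw [card_sdiff_of_subset (by simp [insert_subset_iff, hx, hy]), card_pair hxy.ne] at h1
  omega

variable [Fintype V] {r : ℕ}

theorem adj_layer_one {k : ℕ} (h : FCtx G k r) {v x : V} :
    x ∈ layer G {v} 1 ↔ G.Adj v x := by
  have hQ : ({v} : Finset V).Nonempty := singleton_nonempty v
  have hv0 : lev G {v} v = 0 := (h.lev_zero hQ v).2 (mem_singleton_self v)
  constructor
  · intro hx
    obtain ⟨u, hu, hux⟩ := h.lev_pred hQ (i := 0)
      (show lev G {v} x = 0 + 1 by simpa [layer] using hx)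
    rw [h.lev_zero hQ, mem_singleton] at hu
    exact hu ▸ hux
  · intro hx
    have h1 := h.lev_adj hQ hx
    have h2 : lev G {v} x ≠ 0 := fun e => by
      rw [h.lev_zero hQ, mem_singleton] at e
      exact hx.ne e.symm
    simp [layer]
    omega

/-- There is no counterexample with `k = 4`. -/
theorem false_four (h : FCtx G 4 r) : False := by
  classical
  have hal4 : al G univ ≤ 4 := h.hal.trans h.hk
  have hcl : ∀ C : Finset V, (∀ x ∈ C, ∀ y ∈ C, x ≠ y → G.Adj x y) → C.card ≤ 3 := fun C hC => by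
    by_contra hh
    obtain ⟨K, hK, hKc⟩ := exists_subset_card_eq (show 4 ≤ C.card by omega)
    exact no_full_clique h le_rfl (fun x hx y hy => hC x (hK hx) y (hK hy)) hKc
  have hlay : ∀ v i, 1 ≤ i → 2 * i ≤ 4 → ∀ S, S = layer G {v} i →
      (∀ a ∈ S, ∀ b ∈ S, ∀ c ∈ S, G.Adj a b → G.Adj b c → ¬G.Adj a c) ∧
      (∀ a ∈ S, ∀ b ∈ S, ∀ c ∈ S, ∀ d ∈ S, G.Adj a b → G.Adj b c → G.Adj c d → a ≠ c → b ≠ d →
        a ≠ d → False) := by
    intro v i hi1 hi S hS
    set Q : Finset V := {v} with hQdef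
    have hQ : Q.Nonempty := singleton_nonempty v
    have hlev : ∀ x ∈ S, lev G Q x = i := fun x hx => by simpa [hS, layer] using hx
    have hpar : ∀ x ∈ S, G.Adj (par G Q x) x ∧ lev G Q (par G Q x) + 1 = i := fun x hx => by
      obtain ⟨h1, h2⟩ := h.par_spec hQ (v := x) (by rw [hlev x hx]; omega)
      exact ⟨h2, by rw [hlev x hx] at h1; exact h1⟩
    have same : ∀ x ∈ S, ∀ y ∈ S, G.Adj x y → par G Q x = par G Q y := by
      intro x hx y hy hxy
      by_contra hne
      have hi2 : i = 2 := by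
        by_contra hh
        have e1 : ∀ z ∈ S, par G Q z = v := fun z hz => by
          rw [← mem_singleton, ← hQdef, ← h.lev_zero hQ]
          have := (hpar z hz).2
          omega
        exact hne (by rw [e1 x hx, e1 y hy])
      have hgp : ∀ z ∈ S, (par G Q)^[2] z = v := fun z hz => by
        rw [← mem_singleton, ← hQdef, ← h.lev_zero hQ, h.anc_lev hQ 2 (by rw [hlev z hz, hi2]),
          hlev z hz, hi2]
      have hlink : G.Adj ((par G Q)^[2] y) ((par G Q)^[1] x) := by
        rw [hgp y hy, ← hgp x hx]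
        exact h.anc_adj hQ (v := x) (d := 1) (by rw [hlev x hx]; omega)
      exact h.hC (h.close_anc hQ (isP_two hxy) (fun w hw => by
        simp at hw
        rcases hw with rfl | rfl
        exacts [hS ▸ hx, hS ▸ hy]) (a := 2) (b := 1) (by omega) le_rfl (by omega) (by omega) hlink
        (by simpa using hne))
    refine ⟨fun a ha b hb c hc h1 h2 h3 => ?_, fun a ha b hb c hc d hd h1 h2 h3 n1 n2 n3 => ?_⟩
    · have pa := (hpar a ha).1
      have pb : G.Adj (par G Q a) b := by rw [same a ha b hb h1]; exact (hpar b hb).1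
      have pc : G.Adj (par G Q a) c := by rw [same a ha c hc h3]; exact (hpar c hc).1
      have := hcl {par G Q a, a, b, c} (by
        intro x hx y hy hxy
        simp only [mem_insert, mem_singleton] at hx hy
        rcases hx with rfl | rfl | rfl | rfl <;> rcases hy with rfl | rfl | rfl | rfl
        all_goals first
          | exact absurd rfl hxy
          | assumption
          | exact SimpleGraph.Adj.symm (by assumption))
      rw [card_insert_of_notMem (by simp [pa.ne, pb.ne, pc.ne]),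
        card_insert_of_notMem (by simp [h1.ne, h3.ne]), card_pair h2.ne] at this
      omega
    · have ea := same a ha b hb h1
      have eb := same b hb c hc h2
      have ec := same c hc d hd h3
      have pa := (hpar a ha).1
      have pd : G.Adj (par G Q a) d := by rw [ea, eb, ec]; exact (hpar d hd).1
      have pb : G.Adj (par G Q a) b := by rw [ea]; exact (hpar b hb).1
      have pc : G.Adj (par G Q a) c := by rw [ea, eb]; exact (hpar c hc).1
      refine no_list h.hC (l := [a, b, c, d, par G Q a]) (u := a) (v := par G Q a)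
        (by simp [h1, h2, h3, pd.symm]) ?_ rfl rfl pa rfl
      simp [h1.ne, h2.ne, h3.ne, n1, n2, n3, pa.ne.symm, pb.ne.symm, pc.ne.symm, pd.ne.symm]
  have hb : ∀ v i, 1 ≤ i → 2 * i ≤ 4 → (layer G {v} i).card ≤ 2 * al G (layer G {v} i) :=
    fun v i hi1 hi => (star_bound _ (hlay v i hi1 hi _ rfl).1 (hlay v i hi1 hi _ rfl).2).1
  by_cases hst : ∃ v, (layer G {v} 1).card + 1 ≤ 2 * al G (layer G {v} 1)
  · obtain ⟨v, hv⟩ := hst
    refine h.no_big_false7 le_rfl v (fun K i _ _ hK hi1 hi => ?_) fun _ => by omega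
    obtain rfl : K = 4 := by omega
    have := hb v i hi1 hi
    omega
  simp only [not_exists, not_le] at hst
  have matched : ∀ v x, G.Adj v x → ∃ y, G.Adj v y ∧ G.Adj x y ∧
      ∀ z, G.Adj v z → G.Adj x z → z = y := by
    intro v x hvx
    obtain ⟨y, hy, hxy, honly⟩ := (star_bound _ (hlay v 1 le_rfl (by omega) _ rfl).1
      (hlay v 1 le_rfl (by omega) _ rfl).2).2 (by have := hst v; omega) x ((adj_layer_one h).2 hvx)
    exact ⟨y, (adj_layer_one h).1 hy, hxy,
      fun z h1 h2 => honly z ((adj_layer_one h).2 h1) h2⟩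
  obtain ⟨v, -⟩ := h.nonempty
  have hx : ∀ a, G.Adj v a → ∃ x y, G.Adj a x ∧ G.Adj a y ∧ G.Adj x y ∧ x ≠ v ∧ y ≠ v ∧
      ¬G.Adj v x ∧ ¬G.Adj v y := by
    intro a hva
    obtain ⟨m, hm1, hm2, hm3⟩ := matched v a hva
    obtain ⟨x, hx, hx'⟩ := exists_mem_notMem_of_card_lt_card (s := {v, m})
      (t := univ.filter fun z => G.Adj a z) (lt_of_le_of_lt card_le_two (by
        have := h.degree a
        unfold degIn at this
        have e : (univ.filter fun y => G.Adj a y).card ≥ 4 := by convert this using 3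
        omega))
    simp only [mem_filter, mem_univ, true_and] at hx
    simp only [mem_insert, mem_singleton, not_or] at hx'
    obtain ⟨y, hy1, hy2, hy3⟩ := matched a x hx
    have nvx : ¬G.Adj v x := fun e => hx'.2 (hm3 x e hx)
    obtain ⟨n, hn1, hn2, hn3⟩ := matched a v hva.symm
    have hnm : m = n := hn3 m hm2 hm1
    refine ⟨x, y, hx, hy1, hy2, hx'.1, fun e => ?_, nvx, fun e => ?_⟩
    · subst e; exact nvx hy2.symm
    · have hym : y = m := hm3 y e hy1
      subst hym
      obtain ⟨n', hn1', hn2', hn3'⟩ := matched a y hy1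
      exact hx'.1 ((hn3' x hx hy2.symm).trans (hn3' v hva.symm e.symm).symm)
  choose! X Y hX using hx
  set A := univ.filter fun a => G.Adj v a with hA
  have memA : ∀ a ∈ A, G.Adj v a := fun a ha => by simpa [hA] using ha
  have hinj : ∀ a ∈ A, ∀ b ∈ A, a ≠ b → X a ≠ X b ∧ ¬G.Adj (X a) (X b) := by
    intro a ha b hb hab
    obtain ⟨a1, a2, a3, a4, a5, a6, a7⟩ := hX a (memA a ha)
    obtain ⟨b1, b2, b3, b4, b5, b6, b7⟩ := hX b (memA b hb)
    have va := memA a ha
    have vb := memA b hb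
    have hXa : X a ≠ b := fun e => a6 (e ▸ vb)
    have hXb : X b ≠ a := fun e => b6 (e ▸ va)
    refine ⟨fun e => ?_, fun e => ?_⟩
    · refine no_list h.hC (l := [X a, Y a, a, v, b]) (u := X a) (v := b)
        (by simp [a3, a2.symm, va.symm, vb]) ?_ rfl rfl (e ▸ b1) rfl
      simp [a3.ne, a1.ne.symm, a4, hXa, a2.ne.symm, a5, va.ne.symm, hab, vb.ne,
        show Y a ≠ b from fun e' => a7 (e' ▸ vb)]
    · refine no_list h.hC (l := [X a, a, v, b, X b]) (u := X a) (v := X b)
        (by simp [a1.symm, va.symm, vb, b1]) ?_ rfl rfl e.symm rfl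
      simp [a1.ne.symm, a4, hXa, e.ne, va.ne.symm, hab, hXb.symm, vb.ne, b4.symm, b1.ne]
  have hi : Indep G (insert v (A.image X)) := by
    intro x hx y hy
    simp only [mem_insert, mem_image] at hx hy
    rcases hx with rfl | ⟨a, ha, rfl⟩ <;> rcases hy with rfl | ⟨b, hb', rfl⟩
    · exact G.irrefl
    · exact (hX b (memA b hb')).2.2.2.2.2.1
    · exact fun e => (hX a (memA a ha)).2.2.2.2.2.1 e.symm
    · by_cases e : a = b
      · subst e; exact G.irrefl
      · exact (hinj a ha b hb' e).2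
  have := le_al (G := G) (subset_univ _) hi
  rw [card_insert_of_notMem (by
      simp only [mem_image, not_exists, not_and]
      exact fun a ha e => (hX a (memA a ha)).2.2.2.1 e),
    card_image_of_injOn fun a ha b hb' e => by_contra fun hne => (hinj a ha b hb' hne).1 e] at this
  have hdeg := h.degree v
  unfold degIn at hdeg
  have e : 4 ≤ A.card := by convert hdeg using 3
  omega

/-- There is no counterexample with `k = 3`. -/
theorem false_three (h : FCtx G 3 r) : False := by
  classical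
  have hr := h.hal
  have hr3 := h.hk
  have hbig := h.hbig
  have hr2 := h.hr
  have hdeg : ∀ v, 3 ≤ (univ.filter fun y => G.Adj v y).card := fun v => by
    have := h.degree v
    unfold degIn at this
    convert this using 3
  by_cases htri : ∀ a b c, G.Adj a b → G.Adj b c → ¬G.Adj a c
  · have hnb : ∀ x, Indep G (univ.filter fun y => G.Adj x y) := fun x a ha b hb hab => by
      simp at ha hb
      exact htri x a b ha hab hb
    have hd : ∀ x, (univ.filter fun y => G.Adj x y).card ≤ r := fun x =>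
      (le_al (subset_univ _) (hnb x)).trans hr
    obtain ⟨v, -⟩ := h.nonempty
    have := hdeg v
    have hr3' : r = 3 := by have := hd v; omega
    set W := univ \ insert v (univ.filter fun y => G.Adj v y) with hW
    have hWc : 6 ≤ W.card := by
      rw [hW, card_sdiff_of_subset (subset_univ _), card_univ, card_insert_of_notMem (by simp)]
      have := hd v
      omega
    have hWal : al G W ≤ 2 := by
      obtain ⟨J, j1, j2, j3⟩ := exists_al G W
      have hvJ : ∀ x ∈ J, x ≠ v ∧ ¬G.Adj v x := fun x hx => by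
        have := j1 hx; simpa [hW] using this
      have := le_al (G := G) (subset_univ _) (J := insert v J) (by
        intro a ha b hb
        rw [mem_insert] at ha hb
        rcases ha with rfl | ha <;> rcases hb with rfl | hb
        exacts [G.irrefl, (hvJ b hb).2, fun e => (hvJ a ha).2 e.symm, j2 a ha b hb])
      rw [card_insert_of_notMem fun e => (hvJ v e).1 rfl] at this
      omega
    obtain ⟨w, hw⟩ := card_pos.1 (show 0 < W.card by omega)
    have hwn : (W.filter fun y => G.Adj w y).card ≤ 2 :=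
      (le_al (filter_subset _ _) fun a ha b hb => hnb w a (by
        simp only [mem_filter] at ha ⊢; exact ⟨mem_univ _, ha.2⟩) b (by
        simp only [mem_filter] at hb ⊢; exact ⟨mem_univ _, hb.2⟩)).trans hWal
    have hwo : ((W.erase w).filter fun y => ¬G.Adj w y).card ≤ 2 := by
      by_contra hh
      obtain ⟨a, b, c, ha, hb, hc, hab, hac, hbc⟩ :=
        two_lt_card_iff.1 (show 2 < ((W.erase w).filter fun y => ¬G.Adj w y).card by omega)
      simp only [mem_filter, mem_erase] at ha hb hc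
      have adj : ∀ x y, x ∈ W → y ∈ W → x ≠ w → y ≠ w → ¬G.Adj w x → ¬G.Adj w y → x ≠ y →
          G.Adj x y := by
        intro x y hx hy xw yw n1 n2 hxy
        by_contra hn
        have := le_al (G := G) (S := W) (J := {w, x, y}) (by simp [insert_subset_iff, hw, hx, hy]) (by
          intro p hp q hq
          simp only [mem_insert, mem_singleton] at hp hq
          rcases hp with rfl | rfl | rfl <;> rcases hq with rfl | rfl | rfl
          exacts [G.irrefl, n1, n2, fun e => n1 e.symm, G.irrefl, hn, fun e => n2 e.symm,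
            fun e => hn e.symm, G.irrefl])
        rw [card_insert_of_notMem (by simp [xw.symm, yw.symm]), card_pair hxy] at this
        omega
      exact htri a b c (adj a b ha.1.2 hb.1.2 ha.1.1 hb.1.1 ha.2 hb.2 hab)
        (adj b c hb.1.2 hc.1.2 hb.1.1 hc.1.1 hb.2 hc.2 hbc)
        (adj a c ha.1.2 hc.1.2 ha.1.1 hc.1.1 ha.2 hc.2 hac)
    have := card_le_card (show W.erase w ⊆ (W.filter fun y => G.Adj w y) ∪
        ((W.erase w).filter fun y => ¬G.Adj w y) from fun y hy => by
      by_cases e : G.Adj w y <;> simp [e, hy, mem_of_mem_erase hy])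
    have := card_union_le (W.filter fun y => G.Adj w y) ((W.erase w).filter fun y => ¬G.Adj w y)
    rw [card_erase_of_mem hw] at *
    omega
  simp only [not_forall, not_not] at htri
  obtain ⟨q₁, q₂, q₃, a12, a23, a13⟩ := htri
  set Q : Finset V := {q₁, q₂, q₃} with hQdef
  have hQ : ∀ x ∈ Q, ∀ y ∈ Q, x ≠ y → G.Adj x y := by
    intro x hx y hy hxy
    simp only [hQdef, mem_insert, mem_singleton] at hx hy
    rcases hx with rfl | rfl | rfl <;> rcases hy with rfl | rfl | rfl
    exacts [absurd rfl hxy, a12, a13, a12.symm, absurd rfl hxy, a23, a13.symm, a23.symm,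
      absurd rfl hxy]
  have hQc : Q.card = 3 := by
    rw [hQdef, card_insert_of_notMem (by simp [a12.ne, a13.ne]), card_pair a23.ne]
  have m1 : q₁ ∈ Q := by simp [hQdef]
  have m2 : q₂ ∈ Q := by simp [hQdef]
  have m3 : q₃ ∈ Q := by simp [hQdef]
  have ear : ∀ g, 1 ≤ g → g ≤ 2 → ∀ p ∈ Q, ∀ q ∈ Q, p ≠ q → NoEar G Q p q g :=
    fun g h1 h2 p hp q hq hne =>
      noEar_of_clique h.hC hQ subset_rfl hp hq hne (by omega) (by omega)
  have hout : ∀ q ∈ Q, (out G Q q).Nonempty := fun q hq => card_pos.1 (by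
    have := card_out_ins h.degree Q q; have := ins_clique_le (G := G) hq; omega)
  have one : ∀ p ∈ Q, ∀ q ∈ Q, p ≠ q → ∀ z ∈ out G Q p, z ∉ out G Q q ∧
      ∀ z' ∈ out G Q q, ¬G.Adj z z' := by
    intro p hp q hq hne z hz
    obtain ⟨z1, z2⟩ := mem_out.1 hz
    refine ⟨fun hz' => ear 1 le_rfl (by omega) p hp q hq hne [z] _ _ (isP_singleton _) (by simp [z2])
      rfl z1 (mem_out.1 hz').1.symm, fun z' hz' e => ?_⟩
    exact ear 2 (by omega) le_rfl p hp q hq hne _ _ _ (isP_two e) (by simp [z2, (mem_out.1 hz').2]) rfl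
      z1 (mem_out.1 hz').1.symm
  have noq : ∀ p ∈ Q, ∀ q ∈ Q, p ≠ q → ∀ z ∈ out G Q p, ¬G.Adj q z := fun p hp q hq hne z hz e =>
    (one p hp q hq hne z hz).1 (mem_out.2 ⟨e, (mem_out.1 hz).2⟩)
  obtain ⟨o₁, ho₁⟩ := hout q₁ m1
  obtain ⟨o₂, ho₂⟩ := hout q₂ m2
  obtain ⟨o₃, ho₃⟩ := hout q₃ m3
  have indep4 : ∀ a b c d : V, a ≠ b → a ≠ c → a ≠ d → b ≠ c → b ≠ d → c ≠ d → ¬G.Adj a b →
      ¬G.Adj a c → ¬G.Adj a d → ¬G.Adj b c → ¬G.Adj b d → ¬G.Adj c d → False := by
    intro a b c d n1 n2 n3 n4 n5 n6 e1 e2 e3 e4 e5 e6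
    have := le_al (G := G) (subset_univ _) (J := {a, b, c, d}) (by
      intro p hp q hq
      simp only [mem_insert, mem_singleton] at hp hq
      rcases hp with rfl | rfl | rfl | rfl <;> rcases hq with rfl | rfl | rfl | rfl
      all_goals first
        | exact G.irrefl | assumption
        | (intro e; have e' := e.symm; contradiction))
    rw [card_insert_of_notMem (by simp [n1, n2, n3]), card_insert_of_notMem (by simp [n4, n5]),
      card_pair n6] at this
    omega
  have hr3' : r = 3 := by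
    have := le_al (G := G) (subset_univ _) (J := {o₁, o₂, o₃}) (by
      intro p hp q hq
      simp only [mem_insert, mem_singleton] at hp hq
      rcases hp with rfl | rfl | rfl <;> rcases hq with rfl | rfl | rfl
      exacts [G.irrefl, (one _ m1 _ m2 a12.ne _ ho₁).2 _ ho₂, (one _ m1 _ m3 a13.ne _ ho₁).2 _ ho₃,
        (one _ m2 _ m1 a12.ne.symm _ ho₂).2 _ ho₁, G.irrefl, (one _ m2 _ m3 a23.ne _ ho₂).2 _ ho₃,
        (one _ m3 _ m1 a13.ne.symm _ ho₃).2 _ ho₁, (one _ m3 _ m2 a23.ne.symm _ ho₃).2 _ ho₂, G.irrefl])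
    have n12 : o₁ ≠ o₂ := fun e => (one _ m1 _ m2 a12.ne _ ho₁).1 (e ▸ ho₂)
    have n13 : o₁ ≠ o₃ := fun e => (one _ m1 _ m3 a13.ne _ ho₁).1 (e ▸ ho₃)
    have n23 : o₂ ≠ o₃ := fun e => (one _ m2 _ m3 a23.ne _ ho₂).1 (e ▸ ho₃)
    rw [card_insert_of_notMem (by simp [n12, n13]), card_pair n23] at this
    omega
  have hsmall : ∀ p ∈ Q, ∀ q ∈ Q, ∀ s ∈ Q, p ≠ q → p ≠ s → q ≠ s → ∀ b ∈ out G Q q, ∀ c ∈ out G Q s,
      (out G Q p).card ≤ 2 := by
    intro p hp q hq s hs pq ps qs b hb c hc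
    by_contra hh
    obtain ⟨x, y, z, hx, hy, hz, hxy, hxz, hyz⟩ :=
      two_lt_card_iff.1 (show 2 < (out G Q p).card by omega)
    have hall : ∀ u ∈ out G Q p, ∀ w ∈ out G Q p, u ≠ w → G.Adj u w := by
      intro u hu w hw huw
      by_contra hn
      exact indep4 u w b c huw (fun e => (one p hp q hq pq u hu).1 (e ▸ hb))
        (fun e => (one p hp s hs ps u hu).1 (e ▸ hc)) (fun e => (one p hp q hq pq w hw).1 (e ▸ hb))
        (fun e => (one p hp s hs ps w hw).1 (e ▸ hc)) (fun e => (one q hq s hs qs b hb).1 (e ▸ hc))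
        hn ((one p hp q hq pq u hu).2 b hb) ((one p hp s hs ps u hu).2 c hc)
        ((one p hp q hq pq w hw).2 b hb) ((one p hp s hs ps w hw).2 c hc)
        ((one q hq s hs qs b hb).2 c hc)
    obtain ⟨x1, x2⟩ := mem_out.1 hx
    obtain ⟨y1, y2⟩ := mem_out.1 hy
    obtain ⟨z1, z2⟩ := mem_out.1 hz
    refine no_list h.hC (l := [p, x, y, z]) (u := p) (v := z)
      (by simp [x1, hall x hx y hy hxy, hall y hy z hz hyz]) ?_ rfl rfl z1.symm rfl
    simp [x1.ne, y1.ne, z1.ne, hxy, hxz, hyz]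
  set Z := univ.filter fun z => z ∉ Q ∧ ∀ q ∈ Q, ¬G.Adj q z with hZ
  have memZ : ∀ z ∈ Z, z ∉ Q ∧ ∀ q ∈ Q, ¬G.Adj q z := fun z hz => by simpa [hZ] using hz
  let Full : V → V → Prop := fun q z => ∀ a ∈ out G Q q, G.Adj z a
  have hfull : ∀ z ∈ Z, ∀ p ∈ Q, ∀ q ∈ Q, ∀ s ∈ Q, p ≠ q → p ≠ s → q ≠ s → Full p z ∨ Full q z := by
    intro z hz p hp q hq s hs pq ps qs
    by_contra hc
    simp only [not_or, Full, not_forall] at hc
    obtain ⟨⟨a, ha, hza⟩, b, hb, hzb⟩ := hc
    obtain ⟨hzQ, hzn⟩ := memZ z hz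
    exact indep4 s z a b (fun e => hzQ (e ▸ hs)) (fun e => (mem_out.1 ha).2 (e ▸ hs))
      (fun e => (mem_out.1 hb).2 (e ▸ hs)) (fun e => hzn p hp (e ▸ (mem_out.1 ha).1))
      (fun e => hzn q hq (e ▸ (mem_out.1 hb).1)) (fun e => (one p hp q hq pq a ha).1 (e ▸ hb))
      (hzn s hs) (noq p hp s hs ps a ha) (noq q hq s hs qs b hb) hza hzb
      ((one p hp q hq pq a ha).2 b hb)
  have hone : ∀ p ∈ Q, ∀ z ∈ Z, Full p z → (out G Q p).card ≤ 1 := by
    intro p hp z hz hf
    refine card_le_one.2 fun a ha b hb => by_contra fun hab => ?_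
    refine no_list h.hC (l := [z, a, p, b]) (u := z) (v := b)
      (by simp [hf a ha, (mem_out.1 ha).1.symm, (mem_out.1 hb).1]) ?_ rfl rfl (hf b hb).symm rfl
    simp [(hf a ha).ne, (hf b hb).ne, (mem_out.1 ha).1.ne.symm, (mem_out.1 hb).1.ne, hab,
      show z ≠ p from fun e => (memZ z hz).1 (e ▸ hp)]
  have htwo : ∀ p ∈ Q, ∀ q ∈ Q, p ≠ q →
      (Z.filter fun z => Full p z ∧ Full q z).card ≤ 1 := by
    intro p hp q hq pq
    refine card_le_one.2 fun z hz z' hz' => by_contra fun hne => ?_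
    obtain ⟨hzZ, hf1, hf2⟩ := mem_filter.1 hz
    obtain ⟨hzZ', hf1', hf2'⟩ := mem_filter.1 hz'
    obtain ⟨a, ha⟩ := hout p hp
    obtain ⟨b, hb⟩ := hout q hq
    refine no_list h.hC (l := [z, a, z', b]) (u := z) (v := b)
      (by simp [hf1 a ha, (hf1' a ha).symm, hf2' b hb]) ?_ rfl rfl (hf2 b hb).symm rfl
    simp [(hf1 a ha).ne, hne, (hf2 b hb).ne, (hf1' a ha).ne.symm, (hf2' b hb).ne,
      show a ≠ b from fun e => (one p hp q hq pq a ha).1 (e ▸ hb)]
  have hN : Fintype.card V ≤
      3 + (out G Q q₁).card + (out G Q q₂).card + (out G Q q₃).card + Z.card := by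
    have hsub : (univ : Finset V) ⊆ Q ∪ out G Q q₁ ∪ out G Q q₂ ∪ out G Q q₃ ∪ Z := fun x _ => by
      simp only [mem_union, mem_out, hZ, mem_filter, mem_univ, true_and]
      by_cases hx : x ∈ Q
      · tauto
      by_cases e1 : G.Adj q₁ x
      · tauto
      by_cases e2 : G.Adj q₂ x
      · tauto
      by_cases e3 : G.Adj q₃ x
      · tauto
      refine Or.inr ⟨hx, fun q hq => ?_⟩
      simp only [hQdef, mem_insert, mem_singleton] at hq
      rcases hq with rfl | rfl | rfl <;> assumption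
    have := card_le_card hsub
    rw [card_univ] at this
    have := card_union_le (Q ∪ out G Q q₁ ∪ out G Q q₂ ∪ out G Q q₃) Z
    have := card_union_le (Q ∪ out G Q q₁ ∪ out G Q q₂) (out G Q q₃)
    have := card_union_le (Q ∪ out G Q q₁) (out G Q q₂)
    have := card_union_le Q (out G Q q₁)
    omega
  have s1 := hsmall _ m1 _ m2 _ m3 a12.ne a13.ne a23.ne _ ho₂ _ ho₃
  have s2 := hsmall _ m2 _ m1 _ m3 a12.ne.symm a23.ne a13.ne _ ho₁ _ ho₃
  have s3 := hsmall _ m3 _ m1 _ m2 a13.ne.symm a23.ne.symm a12.ne _ ho₁ _ ho₂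
  -- with two neighbours outside at `p`, every `z` is full at both others
  have big : ∀ p ∈ Q, ∀ q ∈ Q, ∀ s ∈ Q, p ≠ q → p ≠ s → q ≠ s → 2 ≤ (out G Q p).card →
      Z.card ≤ 1 ∧ (0 < Z.card → (out G Q q).card ≤ 1 ∧ (out G Q s).card ≤ 1) := by
    intro p hp q hq s hs pq ps qs h2
    have hall : ∀ z ∈ Z, Full q z ∧ Full s z := fun z hz => by
      have hn : ¬Full p z := fun hf => by have := hone p hp z hz hf; omega
      exact ⟨(hfull z hz p hp q hq s hs pq ps qs).resolve_left hn,
        (hfull z hz p hp s hs q hq ps pq qs.symm).resolve_left hn⟩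
    refine ⟨le_trans (card_le_card fun z hz => mem_filter.2 ⟨hz, hall z hz⟩) (htwo q hq s hs qs),
      fun hpos => ?_⟩
    obtain ⟨z, hz⟩ := card_pos.1 hpos
    exact ⟨hone q hq z hz (hall z hz).1, hone s hs z hz (hall z hz).2⟩
  have hZ3 : Z.card ≤ 3 := by
    have := card_le_card (show Z ⊆ (Z.filter fun z => Full q₁ z ∧ Full q₂ z) ∪
        (Z.filter fun z => Full q₁ z ∧ Full q₃ z) ∪ (Z.filter fun z => Full q₂ z ∧ Full q₃ z) from
      fun z hz => by
        have h12 := hfull z hz _ m1 _ m2 _ m3 a12.ne a13.ne a23.ne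
        have h13 := hfull z hz _ m1 _ m3 _ m2 a13.ne a12.ne a23.ne.symm
        have h23 := hfull z hz _ m2 _ m3 _ m1 a23.ne a12.ne.symm a13.ne.symm
        simp only [mem_union, mem_filter]
        tauto)
    have := htwo _ m1 _ m2 a12.ne
    have := htwo _ m1 _ m3 a13.ne
    have := htwo _ m2 _ m3 a23.ne
    have := card_union_le ((Z.filter fun z => Full q₁ z ∧ Full q₂ z) ∪
        (Z.filter fun z => Full q₁ z ∧ Full q₃ z)) (Z.filter fun z => Full q₂ z ∧ Full q₃ z)
    have := card_union_le (Z.filter fun z => Full q₁ z ∧ Full q₂ z)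
        (Z.filter fun z => Full q₁ z ∧ Full q₃ z)
    omega
  rcases Nat.lt_or_ge (out G Q q₁).card 2 with c1 | c1
  · rcases Nat.lt_or_ge (out G Q q₂).card 2 with c2 | c2
    · rcases Nat.lt_or_ge (out G Q q₃).card 2 with c3 | c3
      · omega
      · have := big _ m3 _ m1 _ m2 a13.ne.symm a23.ne.symm a12.ne c3; omega
    · have := big _ m2 _ m1 _ m3 a12.ne.symm a23.ne a13.ne c2; omega
  · have := big _ m1 _ m2 _ m3 a12.ne a13.ne a23.ne c1; omega

end Vale.Agent.P048.Small
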