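import Vale.Agent.P048.Small.Weigh

/-!
No clique on four vertices when `k = 5`.
-/

namespace Vale.Agent.P048.Small

open Finset Vale.Agent.P048.Cycle Vale.Agent.P048.Full

variable {V : Type*} [DecidableEq V] {G : SimpleGraph V}

/-- Some member of `S` avoids three given vertices. -/
theorem exists_avoid {S : Finset V} (a b c : V) (h : 4 ≤ S.card) :
    ∃ s ∈ S, s ≠ a ∧ s ≠ b ∧ s ≠ c := by
  obtain ⟨s, hs, hs'⟩ := exists_mem_notMem_of_card_lt_card (s := {a, b, c}) (t := S)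
    (lt_of_le_of_lt card_le_three (by omega))
  simp only [mem_insert, mem_singleton, not_or] at hs'
  exact ⟨s, hs, hs'⟩

/-- Two outside vertices with different pairs of neighbours in a `K_4` give a six-cycle. -/
theorem two_pairs_five (hC : ¬HasCyc G (5 + 1)) {Q : Finset V}
    (hQ : ∀ x ∈ Q, ∀ y ∈ Q, x ≠ y → G.Adj x y) (hQc : Q.card = 4) {z z' : V} (hz : z ∉ Q)
    (hz' : z' ∉ Q) (hzz : z ≠ z') {p q x y : V} (hp : p ∈ Q) (hq : q ∈ Q) (hx : x ∈ Q) (hy : y ∈ Q)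
    (hpq : p ≠ q) (hxy : x ≠ y) (h1 : G.Adj z p) (h2 : G.Adj z q) (h3 : G.Adj z' x)
    (h4 : G.Adj z' y) : (p = x ∧ q = y) ∨ (p = y ∧ q = x) := by
  classical
  have hne : ∀ {a}, a ∈ Q → a ≠ z ∧ a ≠ z' := fun ha => ⟨fun e => hz (e ▸ ha), fun e => hz' (e ▸ ha)⟩
  have shared : ∀ a b c : V, a ∈ Q → b ∈ Q → c ∈ Q → a ≠ b → a ≠ c → b ≠ c → G.Adj z a → G.Adj z b →
      G.Adj z' b → G.Adj z' c → False := by
    intro a b c ha hb hc hab hac hbc e1 e2 e3 e4
    obtain ⟨s, hs, sa, sb, sc⟩ := exists_avoid (S := Q) a b c (by omega)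
    refine no_list hC (l := [a, z, b, z', c, s]) (u := a) (v := s)
      (by simp [e1.symm, e2, e3.symm, e4, hQ c hc s hs sc.symm]) ?_ rfl rfl (hQ s hs a ha sa) rfl
    simp [(hne ha).1, (hne ha).2, (hne hb).2, (hne hc).2, (hne hs).1, (hne hs).2,
      (hne hs).1.symm, (hne hs).2.symm, (hne hb).1.symm, (hne hc).1.symm, (hne hc).2.symm,
      hab, hac, hbc, sa.symm, sb.symm, sc.symm, hzz]
  by_cases e : q = x
  · subst e
    by_cases e' : p = y
    · exact Or.inr ⟨e', rfl⟩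
    · exact (shared p q y hp hq hy hpq e' hxy h1 h2 h3 h4).elim
  by_cases e1 : q = y
  · subst e1
    by_cases e' : p = x
    · exact Or.inl ⟨e', rfl⟩
    · exact (shared p q x hp hq hx hpq e' hxy.symm h1 h2 h4 h3).elim
  by_cases e2 : p = x
  · subst e2
    exact (shared q p y hq hp hy hpq.symm e1 hxy h2 h1 h3 h4).elim
  by_cases e3 : p = y
  · subst e3
    exact (shared q p x hq hp hx hpq.symm e hxy.symm h2 h1 h4 h3).elim
  refine (no_list hC (l := [p, z, q, x, z', y]) (u := p) (v := y)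
    (by simp [h1.symm, h2, hQ q hq x hx e, h3.symm, h4]) ?_ rfl rfl (hQ y hy p hp (Ne.symm e3))
    rfl).elim
  simp [(hne hp).1, (hne hp).2, (hne hq).2, (hne hx).2, (hne hy).1.symm, (hne hy).2.symm,
    (hne hq).1.symm, (hne hx).1.symm, hpq, hxy, e, e1, e2, e3, hzz]

variable [Fintype V] {r : ℕ}

/-- For `k = 5` there is no clique on four vertices. -/
theorem no_K4_five (h : FCtx G 5 r)
    (hcl : ∀ C : Finset V, (∀ x ∈ C, ∀ y ∈ C, x ≠ y → G.Adj x y) → C.card ≤ 4) {Q : Finset V}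
    (hQ : ∀ x ∈ Q, ∀ y ∈ Q, x ≠ y → G.Adj x y) (hQc : Q.card = 4) : False := by
  classical
  have hr : al G univ ≤ 5 := h.hal.trans h.hk
  have ear : ∀ g, 2 ≤ g → g ≤ 4 → ∀ p ∈ Q, ∀ q ∈ Q, p ≠ q → NoEar G Q p q g :=
    fun g h1 h2 p hp q hq hne =>
      noEar_of_clique h.hC hQ subset_rfl hp hq hne (by omega) (by omega)
  have hout : ∀ q ∈ Q, 2 ≤ (out G Q q).card := fun q hq => by
    have := card_out_ins h.degree Q q
    have := ins_clique_le (G := G) hq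
    omega
  have hedge : ∀ u ∉ Q, ∀ w ∉ Q, ∀ p ∈ Q, ∀ q ∈ Q, p ≠ q → G.Adj p u → G.Adj w q → ¬G.Adj u w :=
    fun u hu w hw p hp q hq hne h1 h2 e =>
      ear 2 le_rfl (by omega) p hp q hq hne _ _ _ (isP_two e) (by simp [hu, hw]) rfl h1 h2
  have fin : ∀ W S : Finset V, S ⊆ W → (∀ u ∈ W, u ∉ Q) → (∀ u ∈ S, (ins G Q u).card ≤ 1) →
      (∀ u ∈ W, ∀ w ∈ W, u ≠ w → ∃ p ∈ Q, ∃ q ∈ Q, p ≠ q ∧ G.Adj p u ∧ G.Adj w q) →
      6 ≤ W.card + S.card → False := by
    intro W S hS hW hSp hroot hc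
    have := weigh h.degree hcl W S hS hW (fun u hu w hw hne => by
      obtain ⟨p, hp, q, hq, hpq, h1, h2⟩ := hroot u hu w hw hne
      exact ⟨hedge u (hW u hu) w (hW w hw) p hp q hq hpq h1 h2, p, q,
        ear 3 (by omega) (by omega) p hp q hq hpq, ear 4 (by omega) le_rfl p hp q hq hpq, h1, h2⟩)
      fun u hu => by have := hSp u hu; omega
    omega
  set M := multi G Q with hM
  have hsne : ∀ q ∈ Q, (ins G Q q).card ≤ 3 := fun q hq => by
    have := ins_clique_le (G := G) hq; omega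
  by_cases hM1 : M.card ≤ 1
  · have hex : ∀ q ∈ Q, (single G Q q).Nonempty := fun q hq => card_pos.1 (by
      have := out_card_le (G := G) (D := Q) (q := q)
      rw [← hM] at this
      have := hout q hq
      omega)
    choose o ho using hex
    set W := Q.attach.image fun q => o q.1 q.2 with hW
    have hmem : ∀ u ∈ W, ∃ q ∈ Q, u ∈ single G Q q := by
      intro u hu
      obtain ⟨q, -, rfl⟩ := mem_image.1 hu
      exact ⟨q.1, q.2, ho _ _⟩
    have hWc : W.card = 4 := by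
      rw [hW, card_image_of_injective _ fun a b e => ?_, card_attach, hQc]
      refine Subtype.ext ?_
      by_contra hne
      exact disjoint_left.1 (single_disjoint a.2 b.2 hne) (ho a.1 a.2)
        (by rw [show o a.1 a.2 = o b.1 b.2 from e]; exact ho b.1 b.2)
    refine fin W W subset_rfl (fun u hu => ?_) (fun u hu => ?_) (fun u hu w hw hne => ?_) (by omega)
    · obtain ⟨q, -, hq⟩ := hmem u hu; exact (mem_single.1 hq).2.1
    · obtain ⟨q, -, hq⟩ := hmem u hu; exact (mem_single.1 hq).2.2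
    · obtain ⟨a, -, rfl⟩ := mem_image.1 hu
      obtain ⟨b, -, rfl⟩ := mem_image.1 hw
      exact ⟨a.1, a.2, b.1, b.2, fun e => hne (congrArg (fun t : {x // x ∈ Q} => o t.1 t.2) (Subtype.ext e)),
        (mem_single.1 (ho _ _)).1, (mem_single.1 (ho _ _)).1.symm⟩
  obtain ⟨z, hz, z', hz', hzz⟩ := one_lt_card.1 (show 1 < M.card by omega)
  obtain ⟨hzQ, hz2⟩ := mem_multi.1 hz
  obtain ⟨p, hp, q, hq, hpq⟩ := one_lt_card.1 (show 1 < (ins G Q z).card by omega)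
  rw [mem_ins] at hp hq
  have hex : ∀ w ∈ M, w ≠ z → ∀ x ∈ Q, G.Adj w x → x = p ∨ x = q := by
    intro w hw hne x hx hwx
    obtain ⟨hwQ, hw2⟩ := mem_multi.1 hw
    obtain ⟨y, hy, hyx⟩ := exists_mem_ne (show 1 < (ins G Q w).card by omega) x
    rw [mem_ins] at hy
    rcases two_pairs_five h.hC hQ hQc hzQ hwQ hne.symm hp.1 hq.1 hx hy.1 hpq hyx.symm hp.2 hq.2 hwx
      hy.2 with ⟨rfl, -⟩ | ⟨-, rfl⟩
    exacts [Or.inl rfl, Or.inr rfl]
  obtain ⟨hz'Q, hz'2⟩ := mem_multi.1 hz'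
  have hz'pq : G.Adj z' p ∧ G.Adj z' q := by
    obtain ⟨x, hx, y, hy, hxy⟩ := one_lt_card.1 (show 1 < (ins G Q z').card by omega)
    rw [mem_ins] at hx hy
    rcases hex z' hz' hzz.symm x hx.1 hx.2 with rfl | rfl <;>
      rcases hex z' hz' hzz.symm y hy.1 hy.2 with rfl | rfl
    exacts [absurd rfl hxy, ⟨hx.2, hy.2⟩, ⟨hy.2, hx.2⟩, absurd rfl hxy]
  have hex' : ∀ w ∈ M, ∀ x ∈ Q, G.Adj w x → x = p ∨ x = q := by
    intro w hw x hx hwx
    by_cases e : w = z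
    · subst e
      by_contra hc
      simp only [not_or] at hc
      rcases two_pairs_five h.hC hQ hQc hz'Q hzQ hzz.symm hp.1 hq.1 hp.1 hx hpq (Ne.symm hc.1)
        hz'pq.1 hz'pq.2 hp.2 hwx with ⟨-, e'⟩ | ⟨e', -⟩
      · exact hc.2 e'.symm
      · exact hc.1 e'.symm
    · exact hex w hw e x hx hwx
  obtain ⟨a, ha, hap, haq, -⟩ := exists_avoid (S := Q) p q p (by omega)
  obtain ⟨b, hb, hbp, hbq, hba⟩ := exists_avoid (S := Q) p q a (by omega)
  have hs : ∀ c ∈ Q, c ≠ p → c ≠ q → ∃ o, o ∈ single G Q c := by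
    intro c hc hcp hcq
    obtain ⟨o, ho⟩ := card_pos.1 (show 0 < (out G Q c).card by have := hout c hc; omega)
    obtain ⟨h1, h2⟩ := mem_out.1 ho
    refine ⟨o, mem_single.2 ⟨h1, h2, ?_⟩⟩
    by_contra hh
    rcases hex' o (mem_multi.2 ⟨h2, by omega⟩) c hc h1.symm with e | e
    exacts [hcp e, hcq e]
  obtain ⟨oa, hoa⟩ := hs a ha hap haq
  obtain ⟨ob, hob⟩ := hs b hb hbp hbq
  have hab : oa ≠ ob := fun e => disjoint_left.1 (single_disjoint ha hb hba.symm) hoa (e ▸ hob)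
  have hns : ∀ {o c}, o ∈ single G Q c → o ≠ z ∧ o ≠ z' := fun ho =>
    ⟨fun e => by have := (mem_single.1 ho).2.2; rw [e] at this; omega,
      fun e => by have := (mem_single.1 ho).2.2; rw [e] at this; omega⟩
  refine fin {oa, ob, z, z'} {oa, ob} (by simp [insert_subset_iff]) ?_ ?_ ?_ ?_
  · intro u hu
    simp only [mem_insert, mem_singleton] at hu
    rcases hu with rfl | rfl | rfl | rfl
    exacts [(mem_single.1 hoa).2.1, (mem_single.1 hob).2.1, hzQ, hz'Q]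
  · intro u hu
    simp only [mem_insert, mem_singleton] at hu
    rcases hu with rfl | rfl
    exacts [(mem_single.1 hoa).2.2, (mem_single.1 hob).2.2]
  · intro u hu w hw hne
    have root : ∀ t, t = oa ∨ t = ob ∨ t = z ∨ t = z' →
        (t = oa ∧ G.Adj t a) ∨ (t = ob ∧ G.Adj t b) ∨ (G.Adj t p ∧ G.Adj t q) := by
      rintro t (rfl | rfl | rfl | rfl)
      exacts [Or.inl ⟨rfl, (mem_single.1 hoa).1.symm⟩, Or.inr (Or.inl ⟨rfl, (mem_single.1 hob).1.symm⟩),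
        Or.inr (Or.inr ⟨hp.2, hq.2⟩), Or.inr (Or.inr hz'pq)]
    simp only [mem_insert, mem_singleton] at hu hw
    rcases root u hu with ⟨eu, h1⟩ | ⟨eu, h1⟩ | ⟨h1, h1'⟩ <;>
      rcases root w hw with ⟨ew, h2⟩ | ⟨ew, h2⟩ | ⟨h2, h2'⟩
    exacts [absurd (eu.trans ew.symm) hne, ⟨a, ha, b, hb, hba.symm, h1.symm, h2⟩,
      ⟨a, ha, p, hp.1, hap, h1.symm, h2⟩, ⟨b, hb, a, ha, hba, h1.symm, h2⟩,
      absurd (eu.trans ew.symm) hne, ⟨b, hb, p, hp.1, hbp, h1.symm, h2⟩,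
      ⟨p, hp.1, a, ha, hap.symm, h1.symm, h2⟩, ⟨p, hp.1, b, hb, hbp.symm, h1.symm, h2⟩,
      ⟨p, hp.1, q, hq.1, hpq, h1.symm, h2'⟩]
  · rw [card_insert_of_notMem (by simp [hab, (hns hoa).1, (hns hoa).2]),
      card_insert_of_notMem (by simp [(hns hob).1, (hns hob).2]), card_pair hzz, card_pair hab]

end Vale.Agent.P048.Small
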