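import Vale.Agent.P048.Small.K6Diamond

/-!
No clique on four vertices when `k = 6`.
-/

namespace Vale.Agent.P048.Small

open Finset Vale.Agent.P048.Cycle Vale.Agent.P048.Full

variable {V : Type*} [DecidableEq V] {G : SimpleGraph V}

/-- An ear with two vertices and an outside common neighbour of another pair give seven vertices. -/
theorem two_ears_six (hC : ¬HasCyc G (6 + 1)) {Q : Finset V}
    (hQ : ∀ x ∈ Q, ∀ y ∈ Q, x ≠ y → G.Adj x y) (hQc : Q.card = 4) {u w m : V} (hu : u ∉ Q)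
    (hw : w ∉ Q) (hm : m ∉ Q) (hmu : m ≠ u) (hmw : m ≠ w) (huw : G.Adj u w) {p q x y : V}
    (hp : p ∈ Q) (hq : q ∈ Q) (hx : x ∈ Q) (hy : y ∈ Q) (hpq : p ≠ q) (hxy : x ≠ y)
    (h1 : G.Adj p u) (h2 : G.Adj w q) (h3 : G.Adj m x) (h4 : G.Adj m y) :
    (p = x ∧ q = y) ∨ (p = y ∧ q = x) := by
  classical
  have hne : ∀ {a}, a ∈ Q → a ≠ u ∧ a ≠ w ∧ a ≠ m := fun ha =>
    ⟨fun e => hu (e ▸ ha), fun e => hw (e ▸ ha), fun e => hm (e ▸ ha)⟩
  have shared : ∀ a b c u' w' : V, a ∈ Q → b ∈ Q → c ∈ Q → a ≠ b → a ≠ c → b ≠ c → G.Adj m a →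
      G.Adj m b → G.Adj b u' → G.Adj u' w' → G.Adj w' c →
      (u' = u ∧ w' = w) ∨ (u' = w ∧ w' = u) → False := by
    intro a b c u' w' ha hb hc hab hac hbc e1 e2 e3 e4 e5 ew
    obtain ⟨s, hs, sa, sb, sc⟩ := exists_avoid (S := Q) a b c (by omega)
    refine no_list hC (l := [a, m, b, u', w', c, s]) (u := a) (v := s)
      (by simp [e1.symm, e2, e3, e4, e5, hQ c hc s hs sc.symm]) ?_ rfl rfl (hQ s hs a ha sa) rfl
    rcases ew with ⟨rfl, rfl⟩ | ⟨rfl, rfl⟩ <;>
    simp [hne ha, hne hb, hne hc, hne hs, (hne hb).1.symm, (hne hb).2.1.symm, (hne hb).2.2.symm,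
      (hne hc).1.symm, (hne hc).2.1.symm, (hne hc).2.2.symm, (hne hs).1.symm, (hne hs).2.1.symm,
      (hne hs).2.2.symm, hab, hac, hbc, sa.symm, sb.symm, sc.symm, hmu, hmw, huw.ne, huw.ne.symm]
  by_cases e : p = x
  · subst e
    by_cases e' : q = y
    · exact Or.inl ⟨rfl, e'⟩
    · exact (shared y p q u w hy hp hq hxy.symm (Ne.symm e') hpq h4 h3 h1 huw h2
        (Or.inl ⟨rfl, rfl⟩)).elim
  by_cases e1 : p = y
  · subst e1
    by_cases e' : q = x
    · exact Or.inr ⟨rfl, e'⟩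
    · exact (shared x p q u w hx hp hq hxy (Ne.symm e') hpq h3 h4 h1 huw h2
        (Or.inl ⟨rfl, rfl⟩)).elim
  by_cases e2 : q = x
  · subst e2
    exact (shared y q p w u hy hq hp hxy.symm (Ne.symm e1) hpq.symm h4 h3 h2.symm huw.symm h1.symm
      (Or.inr ⟨rfl, rfl⟩)).elim
  by_cases e3 : q = y
  · subst e3
    exact (shared x q p w u hx hq hp hxy (Ne.symm e) hpq.symm h3 h4 h2.symm huw.symm h1.symm
      (Or.inr ⟨rfl, rfl⟩)).elim
  refine (no_list hC (l := [x, m, y, p, u, w, q]) (u := x) (v := q)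
    (by simp [h3.symm, h4, hQ y hy p hp (Ne.symm e1), h1, huw, h2]) ?_ rfl rfl (hQ q hq x hx e2)
    rfl).elim
  simp [hne hx, hne hy, hne hp, (hne hp).2.2.symm, (hne hq).1.symm, (hne hq).2.1.symm,
    (hne hq).2.2.symm, (hne hy).2.2.symm, hxy, Ne.symm e, Ne.symm e1, Ne.symm e2, Ne.symm e3, hpq,
    hmu, hmw, huw.ne]

/-- Two sets of outside neighbours of two clique vertices have nonadjacent members. -/
theorem block {Q A B : Finset V} {p q : V} (hC : ¬HasCyc G (6 + 1))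
    (hcl : ∀ C : Finset V, (∀ x ∈ C, ∀ y ∈ C, x ≠ y → G.Adj x y) → C.card ≤ 4)
    (hQ : ∀ x ∈ Q, ∀ y ∈ Q, x ≠ y → G.Adj x y) (hQc : Q.card = 4) (hp : p ∈ Q) (hq : q ∈ Q)
    (hpq : p ≠ q) (hA : ∀ a ∈ A, G.Adj p a ∧ a ∉ Q) (hB : ∀ b ∈ B, G.Adj q b ∧ b ∉ Q)
    (hsz : (Disjoint A B ∧ 2 ≤ A.card ∧ 2 ≤ B.card) ∨ (3 ≤ A.card ∧ 3 ≤ B.card)) :
    ∃ a ∈ A, ∃ b ∈ B, a ≠ b ∧ ¬G.Adj a b := by
  classical
  by_contra hno
  simp only [not_exists, not_and, not_not] at hno
  have four : ∀ x ∈ A, ∀ y ∈ B, ∀ x' ∈ A, ∀ z ∈ B, x ≠ y → x ≠ x' → x ≠ z → y ≠ x' → y ≠ z →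
      x' ≠ z → False := by
    intro x hx y hy x' hx' z hz a1 a2 a3 a4 a5 a6
    exact noEar_of_clique hC hQ subset_rfl hp hq hpq (g := 4) (by omega) (by omega) _ _ _
      (isP_four (hno x hx y hy a1) (hno x' hx' y hy a4.symm).symm (hno x' hx' z hz a6) a2 a5 a3)
      (by simp [(hA x hx).2, (hB y hy).2, (hA x' hx').2, (hB z hz).2]) rfl (hA x hx).1
      (hB z hz).1.symm
  have hA2 : 2 ≤ A.card := by rcases hsz with h | h <;> omega
  have hB2 : 2 ≤ B.card := by rcases hsz with h | h <;> omega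
  -- a vertex of `B` outside `A`
  have outB : ∀ z ∈ B, z ∉ A → False := by
    intro z hz hzA
    obtain ⟨y, hy, hyz⟩ := exists_mem_ne (show 1 < B.card by omega) z
    obtain ⟨x, hx, x', hx', hxx⟩ := one_lt_card.1 (show 1 < (A.erase y).card by
      rcases hsz with ⟨hd, -⟩ | h
      · rw [erase_eq_of_notMem (disjoint_right.1 hd hy)]; omega
      · have := pred_card_le_card_erase (s := A) (a := y); omega)
    simp only [mem_erase] at hx hx'
    exact four x hx.2 y hy x' hx'.2 z hz hx.1 hxx (fun e => hzA (e ▸ hx.2)) hx'.1.symm hyz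
      (fun e => hzA (e ▸ hx'.2))
  rcases hsz with ⟨hd, -⟩ | ⟨hA3, hB3⟩
  · obtain ⟨z, hz⟩ := card_pos.1 (show 0 < B.card by omega)
    exact outB z hz (disjoint_right.1 hd hz)
  by_cases hBA : A ⊆ B
  · have hBA' : B ⊆ A := fun z hz => by_contra fun hh => outB z hz hh
    have e := hBA'.antisymm hBA
    subst e
    have hK : ∀ x ∈ insert p (insert q B), ∀ y ∈ insert p (insert q B), x ≠ y → G.Adj x y := by
      intro x hx y hy hxy
      simp only [mem_insert] at hx hy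
      rcases hx with rfl | rfl | hx <;> rcases hy with rfl | rfl | hy
      all_goals first
        | exact absurd rfl hxy
        | exact hQ _ hp _ hq hpq
        | exact (hQ _ hp _ hq hpq).symm
        | exact (hA _ hy).1
        | exact (hA _ hx).1.symm
        | exact (hB _ hy).1
        | exact (hB _ hx).1.symm
        | exact hno x hx y hy hxy
    have := hcl _ hK
    rw [card_insert_of_notMem (by simp [hpq]; exact fun e => (hB p e).2 hp),
      card_insert_of_notMem fun e => (hB q e).2 hq] at this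
    omega
  · -- a vertex of `A` outside `B`
    obtain ⟨x, hx, hxB⟩ := not_subset.1 hBA
    obtain ⟨x', hx', hxx⟩ := exists_mem_ne (show 1 < A.card by omega) x
    obtain ⟨y, hy, z, hz, hyz⟩ := one_lt_card.1 (show 1 < (B.erase x').card by
      have := pred_card_le_card_erase (s := B) (a := x'); omega)
    simp only [mem_erase] at hy hz
    exact four x hx y hy.2 x' hx' z hz.2 (fun e => hxB (e ▸ hy.2)) hxx.symm
      (fun e => hxB (e ▸ hz.2)) hy.1 hyz hz.1.symm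

variable [Fintype V] {r : ℕ}

/-- For `k = 6` there is no clique on four vertices. -/
theorem no_K4_six (h : FCtx G 6 r)
    (hcl : ∀ C : Finset V, (∀ x ∈ C, ∀ y ∈ C, x ≠ y → G.Adj x y) → C.card ≤ 4) {Q : Finset V}
    (hQ : ∀ x ∈ Q, ∀ y ∈ Q, x ≠ y → G.Adj x y) (hQc : Q.card = 4) : False := by
  classical
  have hr : al G univ ≤ 6 := h.hal.trans h.hk
  have ear : ∀ g, 3 ≤ g → g ≤ 5 → ∀ p ∈ Q, ∀ q ∈ Q, p ≠ q → NoEar G Q p q g :=
    fun g h1 h2 p hp q hq hne =>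
      noEar_of_clique h.hC hQ subset_rfl hp hq hne (by omega) (by omega)
  have hins : ∀ q ∈ Q, (ins G Q q).card ≤ 3 := fun q hq => by
    have := ins_clique_le (G := G) hq; omega
  have hout : ∀ q ∈ Q, 3 ≤ (out G Q q).card := fun q hq => by
    have := card_out_ins h.degree Q q; have := hins q hq; omega
  have hport : ∀ z, z ∉ Q → (ins G Q z).card ≤ 2 := by
    intro z hz
    by_contra hh
    obtain ⟨T, hT, hTc⟩ := exists_subset_card_eq (show 3 ≤ (ins G Q z).card by omega)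
    obtain ⟨a, b, c, hab, hac, hbc, rfl⟩ := card_eq_three.1 hTc
    have ha := mem_ins.1 (hT (show a ∈ _ by simp))
    have hb := mem_ins.1 (hT (show b ∈ _ by simp))
    have hc := mem_ins.1 (hT (show c ∈ _ by simp))
    obtain ⟨s, hs, sa, sb, sc⟩ := exists_avoid (S := Q) a b c (by omega)
    have za : z ≠ a ∧ z ≠ b ∧ z ≠ c ∧ z ≠ s :=
      ⟨fun e => hz (e ▸ ha.1), fun e => hz (e ▸ hb.1), fun e => hz (e ▸ hc.1), fun e => hz (e ▸ hs)⟩
    refine no_diamond_six h hcl (f := ![a, b, c, s, z]) ⟨fun i j e => ?_, fun i j hij => ?_⟩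
    · fin_cases i <;> fin_cases j <;>
        simp [hab, hac, hbc, sa, sb, sc, za, hab.symm, hac.symm, hbc.symm, sa.symm, sb.symm, sc.symm,
          za.1.symm, za.2.1.symm, za.2.2.1.symm, za.2.2.2.symm] at e ⊢
    · fin_cases i <;> fin_cases j <;> simp [DOk] at hij ⊢
      exacts [hQ _ ha.1 _ hb.1 hab, hQ _ ha.1 _ hc.1 hac, hQ _ ha.1 _ hs sa.symm, ha.2.symm,
        hQ _ hb.1 _ ha.1 hab.symm, hQ _ hb.1 _ hc.1 hbc, hQ _ hb.1 _ hs sb.symm, hb.2.symm,
        hQ _ hc.1 _ ha.1 hac.symm, hQ _ hc.1 _ hb.1 hbc.symm, hQ _ hc.1 _ hs sc.symm, hc.2.symm,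
        hQ _ hs _ ha.1 sa, hQ _ hs _ hb.1 sb, hQ _ hs _ hc.1 sc, ha.2, hb.2, hc.2]
  have fin : ∀ W : Finset V, (∀ u ∈ W, u ∉ Q) → (∀ u ∈ W, ∀ w ∈ W, u ≠ w → ¬G.Adj u w ∧
      ∃ p ∈ Q, ∃ q ∈ Q, p ≠ q ∧ G.Adj p u ∧ G.Adj w q) → 4 ≤ W.card → False := by
    intro W hW hroot hc
    have := weigh h.degree hcl W W subset_rfl hW (fun u hu w hw hne => by
      obtain ⟨hn, p, hp, q, hq, hpq, h1, h2⟩ := hroot u hu w hw hne
      exact ⟨hn, p, q, ear 3 le_rfl (by omega) p hp q hq hpq,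
        ear 4 (by omega) (by omega) p hp q hq hpq, h1, h2⟩)
      fun u hu => by have := hport u (hW u hu); omega
    omega
  set M := multi G Q with hM
  -- an outside edge forces the ports of the other multiple neighbours
  have force : ∀ {u w p q}, u ∉ Q → w ∉ Q → p ∈ Q → q ∈ Q → p ≠ q → G.Adj p u → G.Adj u w →
      G.Adj w q → ∀ m ∈ M, m ≠ u → m ≠ w → G.Adj m p ∧ G.Adj m q ∧
        ∀ x ∈ Q, G.Adj m x → x = p ∨ x = q := by
    intro u w p q hu hw hp hq hpq h1 h2 h3 m hm hmu hmw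
    obtain ⟨hmQ, hm2⟩ := mem_multi.1 hm
    have one : ∀ x ∈ Q, G.Adj m x → G.Adj m p ∧ G.Adj m q ∧ (x = p ∨ x = q) := by
      intro x hx hmx
      obtain ⟨y, hy, hyx⟩ := exists_mem_ne (show 1 < (ins G Q m).card by omega) x
      rw [mem_ins] at hy
      rcases two_ears_six h.hC hQ hQc hu hw hmQ hmu hmw h2 hp hq hx hy.1 hpq hyx.symm h1 h3 hmx
        hy.2 with ⟨rfl, rfl⟩ | ⟨rfl, rfl⟩
      exacts [⟨hmx, hy.2, Or.inl rfl⟩, ⟨hy.2, hmx, Or.inr rfl⟩]
    obtain ⟨x, hx⟩ := card_pos.1 (show 0 < (ins G Q m).card by omega)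
    obtain ⟨h4, h5, -⟩ := one x (mem_ins.1 hx).1 (mem_ins.1 hx).2
    exact ⟨h4, h5, fun x hx hmx => (one x hx hmx).2.2⟩
  have sne : ∀ {a b u w}, a ∈ Q → b ∈ Q → u ∈ single G Q a → w ∈ single G Q b → a ≠ b → u ≠ w :=
    fun ha hb hu hw hab e => disjoint_left.1 (single_disjoint ha hb hab) hu (e ▸ hw)
  have snM : ∀ {a u m}, u ∈ single G Q a → m ∈ M → m ≠ u := fun hu hm e => by
    have := (mem_single.1 hu).2.2
    have := (mem_multi.1 hm).2
    rw [e] at this
    omega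
  by_cases hM1 : M.card ≤ 1
  · -- only single neighbours matter
    have hS2 : ∀ q ∈ Q, 2 ≤ (single G Q q).card := fun q hq => by
      have := out_card_le (G := G) (D := Q) (q := q)
      rw [← hM] at this
      have := hout q hq
      omega
    let E : V → V → Prop := fun a b => ∃ u ∈ single G Q a, ∃ w ∈ single G Q b, G.Adj u w
    have share : ∀ a ∈ Q, ∀ b ∈ Q, ∀ c ∈ Q, a ≠ b → a ≠ c → b ≠ c → E a b → ¬E a c := by
      rintro a ha b hb c hc hab hac hbc ⟨u, hu, w, hw, huw⟩ ⟨u', hu', w', hw', huw'⟩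
      obtain ⟨u1, u2, -⟩ := mem_single.1 hu
      obtain ⟨w1, w2, -⟩ := mem_single.1 hw
      obtain ⟨v1, v2, -⟩ := mem_single.1 hu'
      obtain ⟨z1, z2, -⟩ := mem_single.1 hw'
      by_cases e : u = u'
      · subst e
        exact ear 3 le_rfl (by omega) b hb c hc hbc _ _ _
          (isP_three huw.symm huw' (sne hb hc hw hw' hbc)) (by simp [w2, u2, z2]) rfl w1 z1.symm
      have n1 : ∀ {t}, t ∉ Q → b ≠ t ∧ a ≠ t ∧ c ≠ t := fun ht =>
        ⟨fun e => ht (e ▸ hb), fun e => ht (e ▸ ha), fun e => ht (e ▸ hc)⟩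
      refine no_list h.hC (l := [b, w, u, a, u', w', c]) (u := b) (v := c)
        (by simp [w1, huw.symm, u1.symm, v1, huw', z1.symm]) ?_ rfl rfl (hQ c hc b hb hbc.symm) rfl
      simp [n1 u2, n1 w2, n1 v2, n1 z2, (n1 u2).2.1.symm, (n1 w2).2.1.symm, (n1 u2).2.2.symm,
        (n1 w2).2.2.symm, (n1 v2).2.2.symm, (n1 z2).2.2.symm, hab.symm, hbc, hac,
        sne hb ha hw hu hab.symm, sne hb ha hw hu' hab.symm, sne hb hc hw hw' hbc,
        sne ha hc hu hw' hac, sne ha hc hu' hw' hac, e]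
    obtain ⟨a, b, c, d, hQe, hab, hac, had, hbc, hbd, hcd, e1, e2, e3, e4⟩ : ∃ a b c d,
        (a ∈ Q ∧ b ∈ Q ∧ c ∈ Q ∧ d ∈ Q) ∧ a ≠ b ∧ a ≠ c ∧ a ≠ d ∧ b ≠ c ∧ b ≠ d ∧ c ≠ d ∧
          ¬E a c ∧ ¬E a d ∧ ¬E b c ∧ ¬E b d := by
      have flip : ∀ {a b}, E a b → E b a := fun ⟨u, hu, w, hw, e⟩ => ⟨w, hw, u, hu, e.symm⟩
      have hmk : ∀ a ∈ Q, ∀ b ∈ Q, a ≠ b → ∃ c ∈ Q, ∃ d ∈ Q,
          a ≠ c ∧ a ≠ d ∧ b ≠ c ∧ b ≠ d ∧ c ≠ d := by
        intro a ha b hb hab
        obtain ⟨c, hc, ca, cb, -⟩ := exists_avoid (S := Q) a b a (by omega)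
        obtain ⟨d, hd, da, db, dc⟩ := exists_avoid (S := Q) a b c (by omega)
        exact ⟨c, hc, d, hd, ca.symm, da.symm, cb.symm, db.symm, dc.symm⟩
      by_cases hE : ∃ a ∈ Q, ∃ b ∈ Q, a ≠ b ∧ E a b
      · obtain ⟨a, ha, b, hb, hab, e⟩ := hE
        obtain ⟨c, hc, d, hd, hac, had, hbc, hbd, hcd⟩ := hmk a ha b hb hab
        exact ⟨a, b, c, d, ⟨ha, hb, hc, hd⟩, hab, hac, had, hbc, hbd, hcd,
          share a ha b hb c hc hab hac hbc e, share a ha b hb d hd hab had hbd e,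
          share b hb a ha c hc hab.symm hbc hac (flip e),
          share b hb a ha d hd hab.symm hbd had (flip e)⟩
      · simp only [not_exists, not_and] at hE
        obtain ⟨a, ha, b, hb, hab⟩ := one_lt_card.1 (show 1 < Q.card by omega)
        obtain ⟨c, hc, d, hd, hac, had, hbc, hbd, hcd⟩ := hmk a ha b hb hab
        exact ⟨a, b, c, d, ⟨ha, hb, hc, hd⟩, hab, hac, had, hbc, hbd, hcd, hE a ha c hc hac,
          hE a ha d hd had, hE b hb c hc hbc, hE b hb d hd hbd⟩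
    obtain ⟨ha, hb, hc, hd⟩ := hQe
    have bl : ∀ a ∈ Q, ∀ b ∈ Q, a ≠ b → ∃ u ∈ single G Q a, ∃ w ∈ single G Q b, u ≠ w ∧ ¬G.Adj u w :=
      fun a ha b hb hab => block h.hC hcl hQ hQc ha hb hab
        (fun x hx => ⟨(mem_single.1 hx).1, (mem_single.1 hx).2.1⟩)
        (fun x hx => ⟨(mem_single.1 hx).1, (mem_single.1 hx).2.1⟩)
        (Or.inl ⟨single_disjoint ha hb hab, hS2 a ha, hS2 b hb⟩)
    obtain ⟨ua, hua, ub, hub, nab, eab⟩ := bl a ha b hb hab
    obtain ⟨uc, huc, ud, hud, ncd, ecd⟩ := bl c hc d hd hcd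
    refine fin {ua, ub, uc, ud} (fun u hu => ?_) (fun u hu w hw hne => ?_) ?_
    · simp only [mem_insert, mem_singleton] at hu
      rcases hu with rfl | rfl | rfl | rfl
      exacts [(mem_single.1 hua).2.1, (mem_single.1 hub).2.1, (mem_single.1 huc).2.1,
        (mem_single.1 hud).2.1]
    · simp only [mem_insert, mem_singleton] at hu hw
      have mk : ∀ {x y u w}, x ∈ Q → y ∈ Q → x ≠ y → u ∈ single G Q x → w ∈ single G Q y →
          ¬G.Adj u w → ¬G.Adj u w ∧ ∃ p ∈ Q, ∃ q ∈ Q, p ≠ q ∧ G.Adj p u ∧ G.Adj w q :=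
        fun hx hy hxy hu hw hn => ⟨hn, _, hx, _, hy, hxy, (mem_single.1 hu).1,
          (mem_single.1 hw).1.symm⟩
      have na : ∀ {x y u w}, ¬E x y → u ∈ single G Q x → w ∈ single G Q y → ¬G.Adj u w :=
        fun hE hu hw e => hE ⟨_, hu, _, hw, e⟩
      rcases hu with rfl | rfl | rfl | rfl <;> rcases hw with rfl | rfl | rfl | rfl
      exacts [absurd rfl hne, mk ha hb hab hua hub eab, mk ha hc hac hua huc (na e1 hua huc),
        mk ha hd had hua hud (na e2 hua hud),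
        mk hb ha hab.symm hub hua (fun e => eab e.symm), absurd rfl hne,
        mk hb hc hbc hub huc (na e3 hub huc), mk hb hd hbd hub hud (na e4 hub hud),
        mk hc ha hac.symm huc hua (fun e => na e1 hua huc e.symm),
        mk hc hb hbc.symm huc hub (fun e => na e3 hub huc e.symm), absurd rfl hne,
        mk hc hd hcd huc hud ecd,
        mk hd ha had.symm hud hua (fun e => na e2 hua hud e.symm),
        mk hd hb hbd.symm hud hub (fun e => na e4 hub hud e.symm),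
        mk hd hc hcd.symm hud huc (fun e => ecd e.symm), absurd rfl hne]
    · rw [card_insert_of_notMem (by simp [nab, sne ha hc hua huc hac, sne ha hd hua hud had]),
        card_insert_of_notMem (by simp [sne hb hc hub huc hbc, sne hb hd hub hud hbd]),
        card_pair ncd]
  by_cases hcom : ∃ a b, ∀ m ∈ M, ∀ x ∈ Q, G.Adj m x → x = a ∨ x = b
  · -- all multiple neighbours share their two ports
    obtain ⟨a₀, b₀, hcom⟩ := hcom
    obtain ⟨m₀, hm₀, m₁, hm₁, hmm⟩ := one_lt_card.1 (show 1 < M.card by omega)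
    obtain ⟨hm₀Q, hm₀2⟩ := mem_multi.1 hm₀
    obtain ⟨a, ha', b, hb', hab⟩ := one_lt_card.1 (show 1 < (ins G Q m₀).card by omega)
    obtain ⟨ha, hma⟩ := mem_ins.1 ha'
    obtain ⟨hb, hmb⟩ := mem_ins.1 hb'
    have hcom : ∀ m ∈ M, ∀ x ∈ Q, G.Adj m x → x = a ∨ x = b := by
      intro m hm x hx hmx
      rcases hcom m₀ hm₀ a ha hma with e1 | e1 <;> rcases hcom m₀ hm₀ b hb hmb with e2 | e2 <;>
        rcases hcom m hm x hx hmx with e3 | e3
      all_goals first
        | exact absurd (e1.trans e2.symm) hab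
        | exact Or.inl (e3.trans e1.symm)
        | exact Or.inr (e3.trans e2.symm)
    obtain ⟨c, hc, ca, cb, -⟩ := exists_avoid (S := Q) a b a (by omega)
    obtain ⟨d, hd, da, db, dc⟩ := exists_avoid (S := Q) a b c (by omega)
    have hs : ∀ x ∈ Q, x ≠ a → x ≠ b → ∃ o, o ∈ single G Q x := by
      intro x hx hxa hxb
      obtain ⟨o, ho⟩ := card_pos.1 (show 0 < (out G Q x).card by have := hout x hx; omega)
      obtain ⟨h1, h2⟩ := mem_out.1 ho
      refine ⟨o, mem_single.2 ⟨h1, h2, ?_⟩⟩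
      by_contra hh
      exact (hcom o (mem_multi.2 ⟨h2, by omega⟩) x hx h1.symm).elim hxa hxb
    obtain ⟨uc, huc⟩ := hs c hc ca cb
    obtain ⟨ud, hud⟩ := hs d hd da db
    obtain ⟨ua, hua, ub, hub, nab, eab⟩ := block h.hC hcl hQ hQc ha hb hab
      (A := out G Q a) (B := out G Q b) (fun x hx => mem_out.1 hx) (fun x hx => mem_out.1 hx)
      (Or.inr ⟨hout a ha, hout b hb⟩)
    obtain ⟨a1, a2⟩ := mem_out.1 hua
    obtain ⟨b1, b2⟩ := mem_out.1 hub
    obtain ⟨c1, c2, -⟩ := mem_single.1 huc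
    obtain ⟨d1, d2, -⟩ := mem_single.1 hud
    have hcd : ¬G.Adj uc ud := fun e => by
      obtain ⟨hmc, -, -⟩ := force c2 d2 hc hd dc.symm c1 e d1.symm m₀ hm₀ (snM huc hm₀) (snM hud hm₀)
      exact (hcom m₀ hm₀ c hc hmc).elim ca cb
    -- a vertex rooted at `a` or `b` misses one rooted elsewhere
    have cross : ∀ {u w p q}, u ∉ Q → p ∈ Q → q ∈ Q → q ≠ a → q ≠ b → p ≠ q → G.Adj p u →
        w ∈ single G Q q → ¬G.Adj u w := by
      intro u w p q hu hp hq hqa hqb hpq h1 hw e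
      obtain ⟨w1, w2, -⟩ := mem_single.1 hw
      obtain ⟨m, hm, hmu⟩ := exists_mem_ne (show 1 < M.card by omega) u
      obtain ⟨-, hmq, -⟩ := force hu w2 hp hq hpq h1 e w1.symm m hm hmu (snM hw hm)
      exact (hcom m hm q hq hmq).elim hqa hqb
    have hsn : ∀ {u x q}, u ∈ single G Q q → q ∈ Q → x ∈ Q → x ≠ q → ¬G.Adj x u :=
      fun hu hq hx hxq e => hxq (single_eq hu hq hx e.symm)
    have n1 : ua ≠ uc := fun e => hsn huc hc ha ca.symm (e ▸ a1)
    have n2 : ua ≠ ud := fun e => hsn hud hd ha da.symm (e ▸ a1)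
    have n3 : ub ≠ uc := fun e => hsn huc hc hb cb.symm (e ▸ b1)
    have n4 : ub ≠ ud := fun e => hsn hud hd hb db.symm (e ▸ b1)
    refine fin {ua, ub, uc, ud} (fun u hu => ?_) (fun u hu w hw hne => ?_) ?_
    · simp only [mem_insert, mem_singleton] at hu
      rcases hu with rfl | rfl | rfl | rfl
      exacts [a2, b2, c2, d2]
    · simp only [mem_insert, mem_singleton] at hu hw
      have xac := cross a2 ha hc ca cb ca.symm a1 huc
      have xad := cross a2 ha hd da db da.symm a1 hud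
      have xbc := cross b2 hb hc ca cb cb.symm b1 huc
      have xbd := cross b2 hb hd da db db.symm b1 hud
      rcases hu with rfl | rfl | rfl | rfl <;> rcases hw with rfl | rfl | rfl | rfl
      exacts [absurd rfl hne, ⟨eab, a, ha, b, hb, hab, a1, b1.symm⟩,
        ⟨xac, a, ha, c, hc, ca.symm, a1, c1.symm⟩, ⟨xad, a, ha, d, hd, da.symm, a1, d1.symm⟩,
        ⟨fun e => eab e.symm, b, hb, a, ha, hab.symm, b1, a1.symm⟩, absurd rfl hne,
        ⟨xbc, b, hb, c, hc, cb.symm, b1, c1.symm⟩, ⟨xbd, b, hb, d, hd, db.symm, b1, d1.symm⟩,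
        ⟨fun e => xac e.symm, c, hc, a, ha, ca, c1, a1.symm⟩,
        ⟨fun e => xbc e.symm, c, hc, b, hb, cb, c1, b1.symm⟩, absurd rfl hne,
        ⟨hcd, c, hc, d, hd, dc.symm, c1, d1.symm⟩,
        ⟨fun e => xad e.symm, d, hd, a, ha, da, d1, a1.symm⟩,
        ⟨fun e => xbd e.symm, d, hd, b, hb, db, d1, b1.symm⟩,
        ⟨fun e => hcd e.symm, d, hd, c, hc, dc, d1, c1.symm⟩, absurd rfl hne]
    · rw [card_insert_of_notMem (by simp [nab, n1, n2]), card_insert_of_notMem (by simp [n3, n4]),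
        card_pair (sne hc hd huc hud dc.symm)]
  simp only [not_exists, not_forall, not_or] at hcom
  -- single vertices are pairwise nonadjacent
  have hss : ∀ {u w p q}, p ∈ Q → q ∈ Q → p ≠ q → u ∈ single G Q p → w ∈ single G Q q →
      ¬G.Adj u w := by
    intro u w p q hp hq hpq hu hw e
    obtain ⟨u1, u2, -⟩ := mem_single.1 hu
    obtain ⟨w1, w2, -⟩ := mem_single.1 hw
    obtain ⟨m, hm, x, hx, hmx, hne⟩ := hcom p q
    obtain ⟨-, -, h'⟩ := force u2 w2 hp hq hpq u1 e w1.symm m hm (snM hu hm) (snM hw hm)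
    exact (h' x hx hmx).elim hne.1 hne.2
  have hMs : ∀ {u w q}, u ∈ M → q ∈ Q → w ∈ single G Q q → ¬G.Adj u w := by
    intro u w q hu hq hw e
    obtain ⟨hu1, hu2⟩ := mem_multi.1 hu
    obtain ⟨w1, w2, -⟩ := mem_single.1 hw
    have two := hport u hu1
    obtain ⟨y, hy, hyq⟩ := exists_mem_ne (show 1 < (ins G Q u).card by omega) q
    obtain ⟨hyQ, huy⟩ := mem_ins.1 hy
    by_cases huq : G.Adj u q
    · obtain ⟨m, hm, x, hx, hmx, hne⟩ := hcom y q
      by_cases hmu : m = u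
      · subst hmu
        have : 3 ≤ (ins G Q m).card := by
          refine le_trans ?_ (card_le_card (s := {x, y, q}) fun t ht => ?_)
          · rw [card_insert_of_notMem (by simp [hne.1, hne.2]), card_pair hyq]
          · simp only [mem_insert, mem_singleton] at ht
            rcases ht with rfl | rfl | rfl
            exacts [mem_ins.2 ⟨hx, hmx⟩, mem_ins.2 ⟨hyQ, huy⟩, mem_ins.2 ⟨hq, huq⟩]
        omega
      · obtain ⟨-, -, h'⟩ := force hu1 w2 hyQ hq hyq huy.symm e w1.symm m hm hmu (snM hw hm)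
        exact (h' x hx hmx).elim hne.1 hne.2
    · obtain ⟨y', hy', hyy⟩ := exists_mem_ne (show 1 < (ins G Q u).card by omega) y
      obtain ⟨hy'Q, huy'⟩ := mem_ins.1 hy'
      obtain ⟨m, hm, hmu⟩ := exists_mem_ne (show 1 < M.card by omega) u
      obtain ⟨-, -, h1'⟩ := force hu1 w2 hyQ hq hyq huy.symm e w1.symm m hm hmu (snM hw hm)
      obtain ⟨h2', -, -⟩ := force hu1 w2 hy'Q hq (fun e' => huq (e' ▸ huy')) huy'.symm e w1.symm m hm
        hmu (snM hw hm)
      exact (h1' y' hy'Q h2').elim hyy fun e' => huq (e' ▸ huy')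
  set Sg := Q.filter fun q => (single G Q q).Nonempty with hSg
  have hex : ∀ q ∈ Sg, (single G Q q).Nonempty := fun q hq => (mem_filter.1 hq).2
  choose o ho using hex
  set S := Sg.attach.image fun q => o q.1 q.2 with hS
  have hSm : ∀ u ∈ S, ∃ q ∈ Q, u ∈ single G Q q := fun u hu => by
    obtain ⟨q, -, rfl⟩ := mem_image.1 hu
    exact ⟨q.1, (mem_filter.1 q.2).1, ho _ _⟩
  have hSc : S.card = Sg.card := by
    rw [hS, card_image_of_injective _ fun a b e => ?_, card_attach]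
    refine Subtype.ext ?_
    by_contra hne
    exact sne (mem_filter.1 a.2).1 (mem_filter.1 b.2).1 (ho a.1 a.2) (ho b.1 b.2) hne e
  have hSS : ∀ u ∈ S, ∀ w ∈ S, u ≠ w →
      ¬G.Adj u w ∧ ∃ p ∈ Q, ∃ q ∈ Q, p ≠ q ∧ G.Adj p u ∧ G.Adj w q := by
    intro u hu w hw hne
    obtain ⟨a, -, rfl⟩ := mem_image.1 hu
    obtain ⟨b, -, rfl⟩ := mem_image.1 hw
    have hab : a.1 ≠ b.1 := fun e => hne
      (congrArg (fun t : {x // x ∈ Sg} => o t.1 t.2) (Subtype.ext e))
    exact ⟨hss (mem_filter.1 a.2).1 (mem_filter.1 b.2).1 hab (ho _ _) (ho _ _), a.1,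
      (mem_filter.1 a.2).1, b.1, (mem_filter.1 b.2).1, hab, (mem_single.1 (ho _ _)).1,
      (mem_single.1 (ho _ _)).1.symm⟩
  have hSQ : ∀ u ∈ S, u ∉ Q := fun u hu => by
    obtain ⟨q, -, hq⟩ := hSm u hu; exact (mem_single.1 hq).2.1
  by_cases hfull : 4 ≤ Sg.card
  · exact fin S hSQ hSS (by omega)
  have hM3 : 3 ≤ M.card := by
    obtain ⟨q, hq, hqS⟩ := exists_mem_notMem_of_card_lt_card (s := Sg) (t := Q) (by omega)
    have h0 : (single G Q q).card = 0 := by
      rw [card_eq_zero, ← not_nonempty_iff_eq_empty]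
      exact fun hn => hqS (mem_filter.2 ⟨hq, hn⟩)
    have := out_card_le (G := G) (D := Q) (q := q)
    rw [← hM] at this
    have := hout q hq
    omega
  have hMM : ∀ u ∈ M, ∀ w ∈ M, u ≠ w → ¬G.Adj u w := by
    intro u hu w hw hne e
    obtain ⟨hu1, hu2⟩ := mem_multi.1 hu
    obtain ⟨hw1, hw2⟩ := mem_multi.1 hw
    -- every third vertex of `M` has the ports of `u` and those of `w`
    have eq : ∀ {u w}, u ∈ M → w ∈ M → G.Adj u w → ∀ m ∈ M, m ≠ u → m ≠ w →
        ins G Q u = ins G Q m := by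
      intro u w hu hw e m hm hmu hmw
      obtain ⟨hu1, hu2⟩ := mem_multi.1 hu
      obtain ⟨hw1, hw2⟩ := mem_multi.1 hw
      have hsub : ins G Q u ⊆ ins G Q m := fun y hy => by
        obtain ⟨hyQ, huy⟩ := mem_ins.1 hy
        obtain ⟨q, hq, hqy⟩ := exists_mem_ne (show 1 < (ins G Q w).card by omega) y
        obtain ⟨hqQ, hwq⟩ := mem_ins.1 hq
        exact mem_ins.2 ⟨hyQ, (force hu1 hw1 hyQ hqQ hqy.symm huy.symm e hwq m hm hmu hmw).1⟩
      exact eq_of_subset_of_card_le hsub (le_trans (hport m (mem_multi.1 hm).1) hu2)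
    obtain ⟨m₀, hm₀, hm₀'⟩ := exists_mem_notMem_of_card_lt_card (s := {u, w}) (t := M)
      (lt_of_le_of_lt card_le_two (by omega))
    simp only [mem_insert, mem_singleton, not_or] at hm₀'
    have euw : ins G Q u = ins G Q w :=
      (eq hu hw e m₀ hm₀ hm₀'.1 hm₀'.2).trans (eq hw hu e.symm m₀ hm₀ hm₀'.2 hm₀'.1).symm
    obtain ⟨a, ha, b, hb, hab⟩ := one_lt_card.1 (show 1 < (ins G Q u).card by omega)
    obtain ⟨m, hm, x, hx, hmx, hne'⟩ := hcom a b
    have hxu : x ∈ ins G Q u := by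
      by_cases h1 : m = u
      · exact h1 ▸ mem_ins.2 ⟨hx, hmx⟩
      by_cases h2 : m = w
      · exact euw ▸ h2 ▸ mem_ins.2 ⟨hx, hmx⟩
      rw [eq hu hw e m hm h1 h2]
      exact mem_ins.2 ⟨hx, hmx⟩
    have := le_trans (card_le_card (s := {x, a, b}) (t := ins G Q u)
      (by simp [insert_subset_iff, hxu, ha, hb])) (hport u hu1)
    rw [card_insert_of_notMem (by simp [hne'.1, hne'.2]), card_pair hab] at this
    omega
  have hdis : Disjoint S M := disjoint_left.2 fun u hu hu' => by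
    obtain ⟨q, -, hq⟩ := hSm u hu
    exact snM hq hu' rfl
  have hcount : 4 ≤ Sg.card + M.card := by
    by_contra hh
    have hM3' : M.card = 3 := by omega
    have hSg0 : Sg.card = 0 := by omega
    have hall : ∀ q ∈ Q, out G Q q ⊆ M := fun q hq z hz => by
      obtain ⟨h1, h2⟩ := mem_out.1 hz
      refine mem_multi.2 ⟨h2, ?_⟩
      by_contra hc
      exact (card_pos.2 ⟨q, show q ∈ Sg from mem_filter.2 ⟨hq, z, mem_single.2 ⟨h1, h2, by omega⟩⟩⟩).ne'
        hSg0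
    obtain ⟨z, hz⟩ := card_pos.1 (show 0 < M.card by omega)
    have : Q ⊆ ins G Q z := fun q hq => by
      have := eq_of_subset_of_card_le (hall q hq) (by have := hout q hq; omega)
      rw [← this] at hz
      exact mem_ins.2 ⟨hq, (mem_out.1 hz).1.symm⟩
    have := (card_le_card this).trans (hport z (mem_multi.1 hz).1)
    omega
  refine fin (S ∪ M) (fun u hu => ?_) (fun u hu w hw hne => ?_)
    (by rw [card_union_of_disjoint hdis]; omega)
  · rcases mem_union.1 hu with hu | hu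
    exacts [hSQ u hu, (mem_multi.1 hu).1]
  · have root : ∀ {u w q}, u ∈ M → q ∈ Q → ∃ p ∈ Q, p ≠ q ∧ G.Adj p u ∧ (w : V) = w := by
      intro u w q hu hq
      obtain ⟨p, hp, hpq⟩ := exists_mem_ne
        (show 1 < (ins G Q u).card by have := (mem_multi.1 hu).2; omega) q
      exact ⟨p, (mem_ins.1 hp).1, hpq, (mem_ins.1 hp).2.symm, rfl⟩
    rcases mem_union.1 hu with hu | hu <;> rcases mem_union.1 hw with hw | hw
    · exact hSS u hu w hw hne
    · obtain ⟨q, hq, hu'⟩ := hSm u hu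
      obtain ⟨p, hp, hpq, h1, -⟩ := root (w := w) hw hq
      exact ⟨fun e => hMs hw hq hu' e.symm, q, hq, p, hp, hpq.symm, (mem_single.1 hu').1, h1.symm⟩
    · obtain ⟨q, hq, hw'⟩ := hSm w hw
      obtain ⟨p, hp, hpq, h1, -⟩ := root (w := w) hu hq
      exact ⟨hMs hu hq hw', p, hp, q, hq, hpq, h1, (mem_single.1 hw').1.symm⟩
    · obtain ⟨q, hq⟩ := card_pos.1
        (show 0 < (ins G Q w).card by have := (mem_multi.1 hw).2; omega)
      obtain ⟨p, hp, hpq, h1, -⟩ := root (w := w) hu (mem_ins.1 hq).1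
      exact ⟨hMM u hu w hw hne, p, hp, q, (mem_ins.1 hq).1, hpq, h1, (mem_ins.1 hq).2⟩

end Vale.Agent.P048.Small
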