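import Vale.Agent.P048.Small.K5

/-!
No two `K_4` sharing a triangle when `k = 6`.
-/

namespace Vale.Agent.P048.Small

open Finset Vale.Agent.P048.Cycle Vale.Agent.P048.Full

/-- The allowed edges of `K_5` minus the edge `34`. -/
def DOk (a b : Fin 5) : Prop := a ≠ b ∧ ¬(a = 3 ∧ b = 4) ∧ ¬(a = 4 ∧ b = 3)

instance : DecidableRel DOk := fun a b => by unfold DOk; infer_instance

/-- The inner vertices of a path from `i` to `j` in `K_5` minus an edge. -/
def dMid (i j : Fin 5) (n : ℕ) : List (Fin 5) :=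
  (((if n = 1 then [0, 1, 2] else if i = 4 ∨ j = 3 then [4, 2, 1, 0, 3] else [3, 0, 1, 2, 4]) :
    List (Fin 5)).filter
    fun x => decide (x ≠ i ∧ x ≠ j)).take n

theorem dMid_spec : ∀ i j : Fin 5, i ≠ j → ∀ n : Fin 4, 1 ≤ n.1 →
    List.IsChain DOk (i :: dMid i j n.1 ++ [j]) ∧ (i :: dMid i j n.1 ++ [j]).Nodup ∧
      (dMid i j n.1).length = n.1 := by
  decide +kernel

/-- A pentagon order containing two given pairs. -/
def DFive (i j k l x y z : Fin 5) : Prop :=
  [i, x, y, z, j].Nodup ∧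
    ((((k = i ∧ l = x) ∨ (k = x ∧ l = i)) ∧ DOk x y ∧ DOk y z ∧ DOk z j) ∨
    (((k = x ∧ l = y) ∨ (k = y ∧ l = x)) ∧ DOk i x ∧ DOk y z ∧ DOk z j) ∨
    (((k = y ∧ l = z) ∨ (k = z ∧ l = y)) ∧ DOk i x ∧ DOk x y ∧ DOk z j) ∨
    (((k = z ∧ l = j) ∨ (k = j ∧ l = z)) ∧ DOk i x ∧ DOk x y ∧ DOk y z))

instance (i j k l x y z : Fin 5) : Decidable (DFive i j k l x y z) := by unfold DFive; infer_instance

theorem dCycle_spec : ∀ i j : Fin 5, i ≠ j → ∀ k l : Fin 5, k ≠ l →
    (i = k ∧ j = l) ∨ (i = l ∧ j = k) ∨ (i.1 ≤ 2 ∧ j.1 ≤ 2 ∧ k.1 ≤ 2 ∧ l.1 ≤ 2) ∨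
      ∃ x y z : Fin 5, DFive i j k l x y z := by
  decide +kernel

variable {V : Type*} [DecidableEq V] {G : SimpleGraph V}

/-- Five vertices with all edges except perhaps one. -/
structure Diam (G : SimpleGraph V) (f : Fin 5 → V) : Prop where
  inj : Function.Injective f
  adj : ∀ a b, DOk a b → G.Adj (f a) (f b)

theorem Diam.noEar {f : Fin 5 → V} (hf : Diam G f) (hC : ¬HasCyc G (6 + 1)) {i j : Fin 5}
    (hij : i ≠ j) {g : ℕ} (h2 : 2 ≤ g) (h4 : g ≤ 4) :
    NoEar G (univ.image f) (f i) (f j) g := by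
  intro l u v hl hlD hlen hp hq
  obtain ⟨c1, c2, c3⟩ := dMid_spec i j hij ⟨5 - g, by omega⟩ (by simp; omega)
  simp only at c1 c2 c3
  have hP : IsP G ((i :: dMid i j (5 - g) ++ [j]).map f) (f i) (f j) :=
    ⟨(List.isChain_map f).2 (c1.imp fun a b hab => hf.adj a b hab), c2.map hf.inj, by simp,
      by rw [List.getLast?_map, List.getLast?_concat]; rfl⟩
  have hA := hP.append hl.reverse hq.symm fun x hx hx' => by
    obtain ⟨a, -, rfl⟩ := List.mem_map.1 hx
    exact hlD _ (List.mem_reverse.1 hx') (mem_image.2 ⟨a, mem_univ _, rfl⟩)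
  exact hC ⟨_, _, _, hA, hp.symm, by simp [c3, hlen]; omega⟩

/-- Two outside vertices with two neighbours each in a diamond give a seven-cycle. -/
theorem Diam.two_pairs {f : Fin 5 → V} (hf : Diam G f) (hC : ¬HasCyc G (6 + 1)) {u w : V}
    (hu : u ∉ univ.image f) (hw : w ∉ univ.image f) (huw : u ≠ w) {i j k l : Fin 5} (hij : i ≠ j)
    (hkl : k ≠ l) (h1 : G.Adj u (f i)) (h2 : G.Adj u (f j)) (h3 : G.Adj w (f k))
    (h4 : G.Adj w (f l)) :
    (i = k ∧ j = l) ∨ (i = l ∧ j = k) ∨ (i.1 ≤ 2 ∧ j.1 ≤ 2 ∧ k.1 ≤ 2 ∧ l.1 ≤ 2) := by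
  rcases dCycle_spec i j hij k l hkl with e | e | e | ⟨x, y, z, hn, hc⟩
  · exact Or.inl e
  · exact Or.inr (Or.inl e)
  · exact Or.inr (Or.inr e)
  exfalso
  have hfu : ∀ a, f a ≠ u := fun a e => hu (mem_image.2 ⟨a, mem_univ _, e⟩)
  have hfw : ∀ a, f a ≠ w := fun a e => hw (mem_image.2 ⟨a, mem_univ _, e⟩)
  simp only [List.nodup_cons, List.mem_cons, List.not_mem_nil, or_false, not_or, List.nodup_nil,
    and_true, not_false_eq_true] at hn
  obtain ⟨⟨a1, a2, a3, a4⟩, ⟨a5, a6, a7⟩, ⟨a8, a9⟩, a10⟩ := hn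
  have hne : ∀ {a b}, a ≠ b → f a ≠ f b := fun h e => h (hf.inj e)
  have hw' : ∀ {a b}, (k = a ∧ l = b) ∨ (k = b ∧ l = a) → G.Adj (f a) w ∧ G.Adj w (f b) := by
    rintro a b (⟨rfl, rfl⟩ | ⟨rfl, rfl⟩)
    exacts [⟨h3.symm, h4⟩, ⟨h4.symm, h3⟩]
  rcases hc with ⟨e, d1, d2, d3⟩ | ⟨e, d1, d2, d3⟩ | ⟨e, d1, d2, d3⟩ | ⟨e, d1, d2, d3⟩
  · refine no_list hC (l := [f i, w, f x, f y, f z, f j, u]) (u := f i) (v := u)
      (by simp [(hw' e).1, (hw' e).2, hf.adj _ _ d1, hf.adj _ _ d2, hf.adj _ _ d3, h2.symm]) ?_ rfl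
      rfl h1 rfl
    simp [hfu, hfw, (hfw _).symm, hne, huw.symm, a1, a2, a3, a4, a5, a6, a7, a8, a9, a10]
  · refine no_list hC (l := [f i, f x, w, f y, f z, f j, u]) (u := f i) (v := u)
      (by simp [(hw' e).1, (hw' e).2, hf.adj _ _ d1, hf.adj _ _ d2, hf.adj _ _ d3, h2.symm]) ?_ rfl
      rfl h1 rfl
    simp [hfu, hfw, (hfw _).symm, hne, huw.symm, a1, a2, a3, a4, a5, a6, a7, a8, a9, a10]
  · refine no_list hC (l := [f i, f x, f y, w, f z, f j, u]) (u := f i) (v := u)
      (by simp [(hw' e).1, (hw' e).2, hf.adj _ _ d1, hf.adj _ _ d2, hf.adj _ _ d3, h2.symm]) ?_ rfl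
      rfl h1 rfl
    simp [hfu, hfw, (hfw _).symm, hne, huw.symm, a1, a2, a3, a4, a5, a6, a7, a8, a9, a10]
  · refine no_list hC (l := [f i, f x, f y, f z, w, f j, u]) (u := f i) (v := u)
      (by simp [(hw' e).1, (hw' e).2, hf.adj _ _ d1, hf.adj _ _ d2, hf.adj _ _ d3, h2.symm]) ?_ rfl
      rfl h1 rfl
    simp [hfu, hfw, (hfw _).symm, hne, huw.symm, a1, a2, a3, a4, a5, a6, a7, a8, a9, a10]

theorem Diam.update {f : Fin 5 → V} (hf : Diam G f) {u : V} (hu : u ∉ univ.image f) {s : Fin 5}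
    (hs : s = 3 ∨ s = 4) (h : ∀ a : Fin 5, a.1 ≤ 2 → G.Adj u (f a)) :
    Diam G (Function.update f s u) := by
  have hfu : ∀ a, f a ≠ u := fun a e => hu (mem_image.2 ⟨a, mem_univ _, e⟩)
  have low : ∀ {a b : Fin 5}, DOk a b → a = s → b.1 ≤ 2 := by
    intro a b hab e
    rcases hs with rfl | rfl <;> subst e <;> revert hab <;> revert b <;> decide
  refine ⟨fun a b e => ?_, fun a b hab => ?_⟩
  · by_cases ha : a = s <;> by_cases hb : b = s
    · exact ha.trans hb.symm
    · subst ha; simp [hb] at e; exact absurd e.symm (hfu b)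
    · subst hb; simp [ha] at e; exact absurd e (hfu a)
    · simp [ha, hb] at e; exact hf.inj e
  · by_cases ha : a = s <;> by_cases hb : b = s
    · exact absurd (ha.trans hb.symm) hab.1
    · simp [ha, hb]
      exact h b (low hab ha)
    · simp [ha, hb]
      exact (h a (low ⟨hab.1.symm, fun e => hab.2.2 ⟨e.2, e.1⟩, fun e => hab.2.1 ⟨e.2, e.1⟩⟩ hb)).symm
    · simp [ha, hb]; exact hf.adj a b hab

variable [Fintype V] {r : ℕ}

/-- For `k = 6` no two `K_4` share a triangle. -/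
theorem no_diamond_six (h : FCtx G 6 r)
    (hcl : ∀ C : Finset V, (∀ x ∈ C, ∀ y ∈ C, x ≠ y → G.Adj x y) → C.card ≤ 4) {f : Fin 5 → V}
    (hf : Diam G f) : False := by
  classical
  have hr : al G univ ≤ 6 := h.hal.trans h.hk
  set D := univ.image f with hD
  have hfD : ∀ i, f i ∈ D := fun i => mem_image.2 ⟨i, mem_univ _, rfl⟩
  have hDc : D.card = 5 := by rw [hD, card_image_of_injective _ hf.inj]; simp
  have port : ∀ x ∈ D, ∃ i, f i = x := fun x hx => by
    obtain ⟨i, -, e⟩ := mem_image.1 hx; exact ⟨i, e⟩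
  have ear : ∀ g, 2 ≤ g → g ≤ 4 → ∀ p ∈ D, ∀ q ∈ D, p ≠ q → NoEar G D p q g := by
    intro g h2 h4 p hp q hq hne
    obtain ⟨i, rfl⟩ := port p hp
    obtain ⟨j, rfl⟩ := port q hq
    exact hf.noEar h.hC (fun e => hne (congrArg f e)) h2 h4
  have hedge : ∀ u ∉ D, ∀ w ∉ D, ∀ p ∈ D, ∀ q ∈ D, p ≠ q → G.Adj p u → G.Adj w q → ¬G.Adj u w :=
    fun u hu w hw p hp q hq hne h1 h2 e =>
      ear 2 le_rfl (by omega) p hp q hq hne _ _ _ (isP_two e) (by simp [hu, hw]) rfl h1 h2
  have hins : ∀ i, (ins G D (f i)).card ≤ 4 := fun i => by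
    have := ins_clique_le (G := G) (hfD i); omega
  have hout : ∀ i, 2 ≤ (out G D (f i)).card := fun i => by
    have := card_out_ins h.degree D (f i); have := hins i; omega
  set M := multi G D with hM
  set Sg := (univ : Finset (Fin 5)).filter fun i => (single G D (f i)).Nonempty with hSg
  have hex : ∀ i ∈ Sg, (single G D (f i)).Nonempty := fun i hi => (mem_filter.1 hi).2
  choose o ho using hex
  set S := Sg.attach.image fun i => o i.1 i.2 with hS
  have hSc : S.card = Sg.card := by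
    rw [hS, card_image_of_injective _ fun a b e => ?_, card_attach]
    refine Subtype.ext ?_
    by_contra hne
    exact disjoint_left.1 (single_disjoint (hfD a.1) (hfD b.1) fun e' => hne (hf.inj e'))
      (ho a.1 a.2) (by rw [show o a.1 a.2 = o b.1 b.2 from e]; exact ho b.1 b.2)
  have hSm : ∀ u ∈ S, ∃ i, u ∈ single G D (f i) := fun u hu => by
    obtain ⟨i, -, rfl⟩ := mem_image.1 hu
    exact ⟨i.1, ho _ _⟩
  have hSM : Disjoint S M := disjoint_left.2 fun u hu hu' => by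
    obtain ⟨i, hi⟩ := hSm u hu
    have := (mem_single.1 hi).2.2
    have := (mem_multi.1 hu').2
    omega
  have key : 2 * Sg.card + M.card ≤ 6 := by
    have := weigh h.degree hcl (D := D) (S ∪ M) S subset_union_left
      (fun u hu => ?_) (fun u hu w hw hne => ?_) (fun u hu => ?_)
    · rw [card_union_of_disjoint hSM] at this
      omega
    · rcases mem_union.1 hu with hu | hu
      · obtain ⟨i, hi⟩ := hSm u hu; exact (mem_single.1 hi).2.1
      · exact (mem_multi.1 hu).1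
    · obtain ⟨p, hp, q, hq, hpq, h1, h2, hu', hw'⟩ : ∃ p ∈ D, ∃ q ∈ D, p ≠ q ∧ G.Adj p u ∧
          G.Adj w q ∧ u ∉ D ∧ w ∉ D := by
        have root : ∀ t ∈ S ∪ M, (t ∈ S ∨ t ∈ M) ∧ t ∉ D ∧ ∃ p ∈ D, G.Adj t p := by
          intro t ht
          refine ⟨mem_union.1 ht, ?_⟩
          rcases mem_union.1 ht with ht | ht
          · obtain ⟨i, hi⟩ := hSm t ht
            exact ⟨(mem_single.1 hi).2.1, f i, hfD i, (mem_single.1 hi).1.symm⟩
          · obtain ⟨h1, h2⟩ := mem_multi.1 ht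
            obtain ⟨p, hp⟩ := card_pos.1 (show 0 < (ins G D t).card by omega)
            exact ⟨h1, p, mem_ins.1 hp⟩
        obtain ⟨hu1, hu2, p, hp, hup⟩ := root u hu
        obtain ⟨hw1, hw2, q, hq, hwq⟩ := root w hw
        rcases hu1 with hu1 | hu1
        · rcases hw1 with hw1 | hw1
          · obtain ⟨a, -, rfl⟩ := mem_image.1 hu1
            obtain ⟨b, -, rfl⟩ := mem_image.1 hw1
            exact ⟨f a.1, hfD _, f b.1, hfD _, fun e => hne (congrArg (fun t : {x // x ∈ Sg} => o t.1 t.2)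
              (Subtype.ext (hf.inj e))), (mem_single.1 (ho _ _)).1, (mem_single.1 (ho _ _)).1.symm,
              hu2, hw2⟩
          · obtain ⟨q', hq', hne'⟩ := exists_mem_ne
              (show 1 < (ins G D w).card by have := (mem_multi.1 hw1).2; omega) p
            exact ⟨p, hp, q', (mem_ins.1 hq').1, hne'.symm, hup.symm, (mem_ins.1 hq').2, hu2, hw2⟩
        · obtain ⟨p', hp', hne'⟩ := exists_mem_ne
            (show 1 < (ins G D u).card by have := (mem_multi.1 hu1).2; omega) q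
          exact ⟨p', (mem_ins.1 hp').1, q, hq, hne', (mem_ins.1 hp').2.symm, hwq, hu2, hw2⟩
      exact ⟨hedge u hu' w hw' p hp q hq hpq h1 h2, p, q, ear 3 (by omega) (by omega) p hp q hq hpq,
        ear 4 (by omega) le_rfl p hp q hq hpq, h1, h2⟩
    · obtain ⟨i, hi⟩ := hSm u hu
      have := (mem_single.1 hi).2.2
      omega
  have hSgmem : ∀ i, (∀ z ∈ M, ¬G.Adj z (f i)) → i ∈ Sg := fun i hi => by
    obtain ⟨z, hz⟩ := card_pos.1 (show 0 < (out G D (f i)).card by have := hout i; omega)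
    obtain ⟨h1, h2⟩ := mem_out.1 hz
    refine mem_filter.2 ⟨mem_univ _, z, mem_single.2 ⟨h1, h2, ?_⟩⟩
    by_contra hh
    exact hi z (mem_multi.2 ⟨h2, by omega⟩) h1.symm
  by_cases hM1 : M.card ≤ 1
  · have : Sg = univ := eq_univ_of_forall fun i => by
      refine mem_filter.2 ⟨mem_univ _, card_pos.1 ?_⟩
      have := out_card_le (G := G) (D := D) (q := f i)
      rw [← hM] at this
      have := hout i
      omega
    rw [this, card_univ, Fintype.card_fin] at key
    omega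
  by_cases hhigh : ∃ z ∈ M, ∃ d : Fin 5, 3 ≤ d.1 ∧ G.Adj z (f d)
  · -- all multiple neighbours share one pair
    obtain ⟨z, hz, d, hd, hzd⟩ := hhigh
    obtain ⟨hzD, hz2⟩ := mem_multi.1 hz
    obtain ⟨x, hx, hxd⟩ := exists_mem_ne (show 1 < (ins G D z).card by omega) (f d)
    obtain ⟨hx, hzx⟩ := mem_ins.1 hx
    obtain ⟨e, rfl⟩ := port x hx
    have hed : d ≠ e := fun e' => hxd (by rw [e'])
    obtain ⟨w, hw, hwz⟩ := exists_mem_ne (show 1 < M.card by omega) z
    have pairs : ∀ m ∈ M, m ≠ z → ∀ a, G.Adj m (f a) → a = d ∨ a = e := by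
      intro m hm hmz a ha
      obtain ⟨hmD, hm2⟩ := mem_multi.1 hm
      obtain ⟨y, hy, hya⟩ := exists_mem_ne (show 1 < (ins G D m).card by omega) (f a)
      obtain ⟨hy, hmy⟩ := mem_ins.1 hy
      obtain ⟨b, rfl⟩ := port y hy
      rcases hf.two_pairs h.hC hzD hmD hmz.symm hed (fun e' => hya (by rw [e'])) hzd hzx ha hmy with
        ⟨e1, -⟩ | ⟨-, e2⟩ | ⟨e3, -⟩
      · exact Or.inl e1.symm
      · exact Or.inr e2.symm
      · omega
    obtain ⟨hwD, hw2⟩ := mem_multi.1 hw
    have hwde : G.Adj w (f d) ∧ G.Adj w (f e) := by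
      obtain ⟨y, hy, y', hy', hyy⟩ := one_lt_card.1 (show 1 < (ins G D w).card by omega)
      rw [mem_ins] at hy hy'
      obtain ⟨a, rfl⟩ := port y hy.1
      obtain ⟨b, rfl⟩ := port y' hy'.1
      rcases pairs w hw hwz a hy.2 with rfl | rfl <;> rcases pairs w hw hwz b hy'.2 with rfl | rfl
      exacts [absurd rfl hyy, ⟨hy.2, hy'.2⟩, ⟨hy'.2, hy.2⟩, absurd rfl hyy]
    have all : ∀ m ∈ M, ∀ a, G.Adj m (f a) → a = d ∨ a = e := by
      intro m hm a ha
      by_cases hmz : m = z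
      · subst hmz
        by_contra hc
        simp only [not_or] at hc
        rcases hf.two_pairs h.hC hwD hzD hwz hed (Ne.symm hc.1) hwde.1 hwde.2 hzd ha with
          ⟨-, e2⟩ | ⟨e1, -⟩ | ⟨e3, -⟩
        · exact hc.2 e2.symm
        · exact hc.1 e1.symm
        · omega
      · exact pairs m hm hmz a ha
    have : (univ \ {d, e} : Finset (Fin 5)) ⊆ Sg := fun i hi => hSgmem i fun m hm hmi => by
      rcases all m hm i hmi with rfl | rfl <;> simp at hi
    have hc := card_le_card this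
    rw [card_sdiff_of_subset (subset_univ _), card_pair hed, card_univ, Fintype.card_fin] at hc
    omega
  simp only [not_exists, not_and] at hhigh
  have h34 : ({3, 4} : Finset (Fin 5)) ⊆ Sg := fun i hi => hSgmem i fun z hz =>
    hhigh z hz i (by simp at hi; rcases hi with rfl | rfl <;> decide)
  have h34c := card_le_card h34
  rw [card_pair (by decide : (3 : Fin 5) ≠ 4)] at h34c
  have hSg2 : Sg.card = 2 := by omega
  have hM2 : M.card = 2 := by omega
  have hlow : ∀ z ∈ M, ∀ i : Fin 5, i.1 ≤ 2 → G.Adj z (f i) := by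
    intro z hz i hi
    have hns : i ∉ Sg := fun hi' => by
      have e := eq_of_subset_of_card_le h34 (by rw [hSg2, card_pair (by decide : (3 : Fin 5) ≠ 4)])
      rw [← e] at hi'
      simp at hi'
      rcases hi' with rfl | rfl <;> simp at hi
    have hsub : out G D (f i) ⊆ M := fun y hy => by
      obtain ⟨h1, h2⟩ := mem_out.1 hy
      refine mem_multi.2 ⟨h2, ?_⟩
      by_contra hh
      exact hns (mem_filter.2 ⟨mem_univ _, y, mem_single.2 ⟨h1, h2, by omega⟩⟩)
    have := eq_of_subset_of_card_le hsub (by have := hout i; omega)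
    rw [← this] at hz
    exact (mem_out.1 hz).1.symm
  obtain ⟨u, w, huw, hMe⟩ := card_eq_two.1 hM2
  have hu : u ∈ M := by rw [hMe]; simp
  have hw : w ∈ M := by rw [hMe]; simp
  obtain ⟨huD, -⟩ := mem_multi.1 hu
  obtain ⟨hwD, -⟩ := mem_multi.1 hw
  have huN : ins G D u ⊆ ({0, 1, 2} : Finset (Fin 5)).image f := fun x hx => by
    obtain ⟨hxD, hux⟩ := mem_ins.1 hx
    obtain ⟨i, rfl⟩ := port x hxD
    refine mem_image.2 ⟨i, ?_, rfl⟩
    have : ¬3 ≤ i.1 := fun h3 => hhigh u hu i h3 hux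
    exact (by decide : ∀ i : Fin 5, ¬3 ≤ i.1 → i ∈ ({0, 1, 2} : Finset (Fin 5))) i this
  have huNc : (ins G D u).card ≤ 3 := (card_le_card huN).trans (card_image_le.trans (by decide))
  obtain ⟨p, hp, hpw⟩ : ∃ p, p ∈ out G D u ∧ p ≠ w := exists_mem_ne (by
    have := card_out_ins h.degree D u; omega) w
  obtain ⟨hup, hpD⟩ := mem_out.1 hp
  have hpno : ∀ i, ¬G.Adj p (f i) := fun i hpi => by
    obtain ⟨a, ha, hai⟩ := (by decide : ∀ i : Fin 5, ∃ a : Fin 5, a.1 ≤ 2 ∧ a ≠ i) i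
    exact hedge u huD p hpD (f a) (hfD a) (f i) (hfD i) (fun e => hai (hf.inj e))
      (hlow u hu a ha).symm hpi hup
  have hpw' : ¬G.Adj p w := fun e =>
    ear 3 (by omega) (by omega) (f 0) (hfD 0) (f 1) (hfD 1) (fun e' => absurd (hf.inj e') (by decide))
      _ _ _ (isP_three hup e huw) (by simp [huD, hpD, hwD]) rfl (hlow u hu 0 (by simp)).symm
      (hlow w hw 1 (by simp))
  obtain ⟨od, hod⟩ := (mem_filter.1 (h34 (show (3 : Fin 5) ∈ _ by simp))).2
  obtain ⟨oe, hoe⟩ := (mem_filter.1 (h34 (show (4 : Fin 5) ∈ _ by simp))).2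
  obtain ⟨hd1, hd2, hd3⟩ := mem_single.1 hod
  obtain ⟨he1, he2, he3⟩ := mem_single.1 hoe
  have hdu : ¬G.Adj u od := hedge u huD od hd2 (f 0) (hfD 0) (f 3) (hfD 3)
    (fun e' => absurd (hf.inj e') (by decide)) (hlow u hu 0 (by simp)).symm hd1.symm
  have heu : ¬G.Adj u oe := hedge u huD oe he2 (f 0) (hfD 0) (f 4) (hfD 4)
    (fun e' => absurd (hf.inj e') (by decide)) (hlow u hu 0 (by simp)).symm he1.symm
  have hdw : ¬G.Adj w od := hedge w hwD od hd2 (f 0) (hfD 0) (f 3) (hfD 3)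
    (fun e' => absurd (hf.inj e') (by decide)) (hlow w hw 0 (by simp)).symm hd1.symm
  have hew : ¬G.Adj w oe := hedge w hwD oe he2 (f 0) (hfD 0) (f 4) (hfD 4)
    (fun e' => absurd (hf.inj e') (by decide)) (hlow w hw 0 (by simp)).symm he1.symm
  have hde : ¬G.Adj od oe := hedge od hd2 oe he2 (f 3) (hfD 3) (f 4) (hfD 4)
    (fun e' => absurd (hf.inj e') (by decide)) hd1 he1.symm
  have hns : ∀ {t i}, t ∈ single G D (f i) → ∀ j, j ≠ i → ¬G.Adj t (f j) := fun ht j hji e =>
    hji (hf.inj (single_eq ht (hfD _) (hfD j) e))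
  have hode : od ≠ oe := fun e => hns hod 4 (by decide) (e ▸ he1.symm)
  have hodu : od ≠ u := fun e => hhigh u hu 3 (by decide) (e ▸ hd1.symm)
  have hoeu : oe ≠ u := fun e => hhigh u hu 4 (by decide) (e ▸ he1.symm)
  have hodw : od ≠ w := fun e => hhigh w hw 3 (by decide) (e ▸ hd1.symm)
  have hoew : oe ≠ w := fun e => hhigh w hw 4 (by decide) (e ▸ he1.symm)
  have hpd : p ≠ od := fun e => hpno 3 (e ▸ hd1.symm)
  have hpe : p ≠ oe := fun e => hpno 4 (e ▸ he1.symm)
  have f' := hf.update (u := u) huD (s := 4) (Or.inr rfl) fun a ha => hlow u hu a ha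
  have f'' := hf.update (u := u) huD (s := 3) (Or.inl rfl) fun a ha => hlow u hu a ha
  have sub' : ∀ s : Fin 5, univ.image (Function.update f s u) ⊆ insert u D := fun s x hx => by
    obtain ⟨a, -, rfl⟩ := mem_image.1 hx
    by_cases ha : a = s
    · subst ha; simp
    · simp [ha, hfD a]
  have not' : ∀ (s : Fin 5) x, x ∉ D → x ≠ u → x ∉ univ.image (Function.update f s u) :=
    fun s x h1 h2 hx => (mem_insert.1 (sub' s hx)).elim h2 h1
  have earu : ∀ g, 2 ≤ g → g ≤ 4 → ∀ a : Fin 5, NoEar G (insert u D) u (f a) g := by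
    intro g h2 h4 a
    by_cases ha : a = 4
    · subst ha
      have := f''.noEar h.hC (show (3 : Fin 5) ≠ 4 by decide) h2 h4
      simp at this
      exact this.mono (sub' 3)
    · have := f'.noEar h.hC (Ne.symm ha) h2 h4
      simp [ha] at this
      exact this.mono (sub' 4)
  have hpd' : ¬G.Adj p od := fun e => earu 2 le_rfl (by omega) 3 _ _ _ (isP_two e)
    (by simp [hpD, hd2, hup.ne.symm, hodu]) rfl hup hd1.symm
  have hpe' : ¬G.Adj p oe := fun e => earu 2 le_rfl (by omega) 4 _ _ _ (isP_two e)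
    (by simp [hpD, he2, hup.ne.symm, hoeu]) rfl hup he1.symm
  have earD : ∀ g, 2 ≤ g → g ≤ 4 → ∀ a b : Fin 5, a ≠ b → NoEar G (insert u D) (f a) (f b) g :=
    fun g h2 h4 a b hab => (hf.noEar h.hC hab h2 h4).mono (subset_insert _ _)
  have flip : ∀ {a b : V} {g : ℕ}, NoEar G (insert u D) a b g → NoEar G (insert u D) b a g :=
    fun hn l x y hl hlD hlen h1 h2 => hn l.reverse y x hl.reverse (by simpa using hlD)
      (by simpa using hlen) h2.symm h1.symm
  have final := weigh h.degree hcl (D := insert u D) {od, oe, p, w} {od, oe, p}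
    (by simp [insert_subset_iff]) ?_ ?_ ?_
  · rw [card_insert_of_notMem (by simp [hode, hpd.symm, hodw]),
      card_insert_of_notMem (by simp [hpe.symm, hoew]), card_pair hpw,
      card_insert_of_notMem (by simp [hode, hpd.symm]), card_pair hpe.symm] at final
    omega
  · intro t ht
    simp only [mem_insert, mem_singleton] at ht
    rcases ht with rfl | rfl | rfl | rfl <;>
      simp [hd2, he2, hpD, hwD, hodu, hoeu, hup.ne.symm, huw.symm]
  · have w0 := hlow w hw 0 (by simp)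
    intro t ht t' ht' hne
    simp only [mem_insert, mem_singleton] at ht ht'
    have two : ∀ a b : V, (∀ g, 2 ≤ g → g ≤ 4 → NoEar G (insert u D) a b g) →
        ∀ x y, ¬G.Adj x y → G.Adj a x → G.Adj y b → ¬G.Adj x y ∧ ∃ p q,
          NoEar G (insert u D) p q 3 ∧ NoEar G (insert u D) p q 4 ∧ G.Adj p x ∧ G.Adj y q :=
      fun a b he x y hn h1 h2 => ⟨hn, a, b, he 3 (by omega) (by omega), he 4 (by omega) le_rfl, h1, h2⟩
    rcases ht with rfl | rfl | rfl | rfl <;> rcases ht' with rfl | rfl | rfl | rfl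
    all_goals first | exact absurd rfl hne | skip
    · exact two _ _ (fun g a b => earD g a b 3 4 (by decide)) _ _ hde hd1 he1.symm
    · exact two _ _ (fun g a b => flip (earu g a b 3)) _ _ (fun e => hpd' e.symm) hd1 hup.symm
    · exact two _ _ (fun g a b => earD g a b 3 0 (by decide)) _ _ (fun e => hdw e.symm) hd1 w0
    · exact two _ _ (fun g a b => earD g a b 4 3 (by decide)) _ _ (fun e => hde e.symm) he1 hd1.symm
    · exact two _ _ (fun g a b => flip (earu g a b 4)) _ _ (fun e => hpe' e.symm) he1 hup.symm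
    · exact two _ _ (fun g a b => earD g a b 4 0 (by decide)) _ _ (fun e => hew e.symm) he1 w0
    · exact two _ _ (fun g a b => earu g a b 3) _ _ hpd' hup hd1.symm
    · exact two _ _ (fun g a b => earu g a b 4) _ _ hpe' hup he1.symm
    · exact two _ _ (fun g a b => earu g a b 0) _ _ hpw' hup w0
    · exact two _ _ (fun g a b => earD g a b 0 3 (by decide)) _ _ hdw w0.symm hd1.symm
    · exact two _ _ (fun g a b => earD g a b 0 4 (by decide)) _ _ hew w0.symm he1.symm
    · exact two _ _ (fun g a b => flip (earu g a b 0)) _ _ (fun e => hpw' e.symm) w0.symm hup.symm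
  · intro t ht
    simp only [mem_insert, mem_singleton] at ht
    have : (ins G (insert u D) t).card ≤ 1 := by
      rcases ht with rfl | rfl | rfl
      · refine le_trans (card_le_card fun x hx => ?_) hd3
        obtain ⟨h1, h2⟩ := mem_ins.1 hx
        rcases mem_insert.1 h1 with rfl | h1
        · exact absurd h2.symm hdu
        · exact mem_ins.2 ⟨h1, h2⟩
      · refine le_trans (card_le_card fun x hx => ?_) he3
        obtain ⟨h1, h2⟩ := mem_ins.1 hx
        rcases mem_insert.1 h1 with rfl | h1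
        · exact absurd h2.symm heu
        · exact mem_ins.2 ⟨h1, h2⟩
      · refine le_trans (card_le_card (t := {u}) fun x hx => ?_) (card_singleton u).le
        obtain ⟨h1, h2⟩ := mem_ins.1 hx
        rcases mem_insert.1 h1 with rfl | h1
        · simp
        · obtain ⟨i, rfl⟩ := port x h1
          exact absurd h2 (hpno i)
    omega

end Vale.Agent.P048.Small
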