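import Vale.Agent.P048.Small.K5

/-!
A `K_4` seen from a vertex at distance two is impossible when `k = 7`.
-/

namespace Vale.Agent.P048.Small

open Finset Vale.Agent.P048.Cycle Vale.Agent.P048.Full

variable {V : Type*} [DecidableEq V] {G : SimpleGraph V}

/-- A common neighbour of one pair of `K_4` and a path with three vertices between another pair. -/
theorem ears_eight (hC : ¬HasCyc G (7 + 1)) {Q : Finset V}
    (hQ : ∀ x ∈ Q, ∀ y ∈ Q, x ≠ y → G.Adj x y) (hQc : Q.card = 4) {z u₁ u₂ u₃ : V} (hz : z ∉ Q)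
    (h₁ : u₁ ∉ Q) (h₂ : u₂ ∉ Q) (h₃ : u₃ ∉ Q) (hz₁ : z ≠ u₁) (hz₂ : z ≠ u₂) (hz₃ : z ≠ u₃)
    (h13 : u₁ ≠ u₃) (e₁ : G.Adj u₁ u₂) (e₂ : G.Adj u₂ u₃) {p q x y : V} (hp : p ∈ Q) (hq : q ∈ Q)
    (hx : x ∈ Q) (hy : y ∈ Q) (hpq : p ≠ q) (hxy : x ≠ y) (hzp : G.Adj z p) (hzq : G.Adj z q)
    (hxu : G.Adj x u₁) (huy : G.Adj u₃ y) : (p = x ∧ q = y) ∨ (p = y ∧ q = x) := by
  classical
  have hne : ∀ {a}, a ∈ Q → a ≠ z ∧ a ≠ u₁ ∧ a ≠ u₂ ∧ a ≠ u₃ := fun ha => ⟨fun e => hz (e ▸ ha),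
    fun e => h₁ (e ▸ ha), fun e => h₂ (e ▸ ha), fun e => h₃ (e ▸ ha)⟩
  have shared : ∀ a b c v₁ v₃ : V, a ∈ Q → b ∈ Q → c ∈ Q → a ≠ b → a ≠ c → b ≠ c → G.Adj z a →
      G.Adj z b → G.Adj b v₁ → G.Adj v₁ u₂ → G.Adj u₂ v₃ → G.Adj v₃ c →
      (v₁ = u₁ ∧ v₃ = u₃) ∨ (v₁ = u₃ ∧ v₃ = u₁) → False := by
    intro a b c v₁ v₃ ha hb hc hab hac hbc d1 d2 d3 d4 d5 d6 ev
    obtain ⟨s, hs, sa, sb, sc⟩ := exists_avoid (S := Q) a b c (by omega)
    refine no_list hC (l := [a, z, b, v₁, u₂, v₃, c, s]) (u := a) (v := s)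
      (by simp [d1.symm, d2, d3, d4, d5, d6, hQ c hc s hs sc.symm]) ?_ rfl rfl (hQ s hs a ha sa) rfl
    rcases ev with ⟨rfl, rfl⟩ | ⟨rfl, rfl⟩ <;>
    simp [hne ha, hne hb, hne hc, hne hs, (hne hb).1.symm, (hne hb).2.1.symm, (hne hb).2.2.1.symm,
      (hne hb).2.2.2.symm, (hne hc).1.symm, (hne hc).2.1.symm, (hne hc).2.2.1.symm,
      (hne hc).2.2.2.symm, (hne hs).1.symm, (hne hs).2.1.symm, (hne hs).2.2.1.symm,
      (hne hs).2.2.2.symm, hab, hac, hbc, sa.symm, sb.symm, sc.symm, hz₁, hz₂, hz₃, h13, h13.symm,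
      e₁.ne, e₂.ne, e₁.ne.symm, e₂.ne.symm]
  by_cases e : p = x
  · subst e
    by_cases e' : q = y
    · exact Or.inl ⟨rfl, e'⟩
    · exact (shared q p y u₁ u₃ hq hp hy hpq.symm e' hxy hzq hzp hxu e₁ e₂ huy
        (Or.inl ⟨rfl, rfl⟩)).elim
  by_cases e1 : p = y
  · subst e1
    by_cases e' : q = x
    · exact Or.inr ⟨rfl, e'⟩
    · exact (shared q p x u₃ u₁ hq hp hx hpq.symm e' hxy.symm hzq hzp huy.symm e₂.symm e₁.symm
        hxu.symm (Or.inr ⟨rfl, rfl⟩)).elim
  by_cases e2 : q = x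
  · subst e2
    exact (shared p q y u₁ u₃ hp hq hy hpq e1 hxy hzp hzq hxu e₁ e₂ huy (Or.inl ⟨rfl, rfl⟩)).elim
  by_cases e3 : q = y
  · subst e3
    exact (shared p q x u₃ u₁ hp hq hx hpq e hxy.symm hzp hzq huy.symm e₂.symm e₁.symm hxu.symm
      (Or.inr ⟨rfl, rfl⟩)).elim
  refine (no_list hC (l := [x, u₁, u₂, u₃, y, p, z, q]) (u := x) (v := q)
    (by simp [hxu, e₁, e₂, huy, hQ y hy p hp (Ne.symm e1), hzp.symm, hzq]) ?_ rfl rfl
    (hQ q hq x hx e2) rfl).elim
  simp [hne hx, hne hy, hne hp, (hne hp).2.1.symm, (hne hp).2.2.1.symm, (hne hp).2.2.2.symm,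
    (hne hq).1.symm, (hne hq).2.1.symm, (hne hq).2.2.1.symm, (hne hq).2.2.2.symm,
    (hne hy).2.1.symm, (hne hy).2.2.1.symm, (hne hy).2.2.2.symm, hxy, Ne.symm e, Ne.symm e1,
    Ne.symm e2, Ne.symm e3, hpq, hz₁.symm, hz₂.symm, hz₃.symm, h13, e₁.ne, e₂.ne]

/-- An outside edge between two vertices of `K_4` and a two-step path at one of them. -/
theorem ears_edge (hC : ¬HasCyc G (7 + 1)) {Q : Finset V}
    (hQ : ∀ x ∈ Q, ∀ y ∈ Q, x ≠ y → G.Adj x y) {a w b u u' : V} (ha : a ∉ Q) (hw : w ∉ Q)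
    (hb : b ∉ Q) (hu : u ∉ Q) (hu' : u' ∉ Q) (hab : a ≠ b) (hau : a ≠ u) (hau' : a ≠ u')
    (hwu : w ≠ u) (hwu' : w ≠ u') (hbu : b ≠ u) (hbu' : b ≠ u') (e₁ : G.Adj a w) (e₂ : G.Adj w b)
    (e₃ : G.Adj u u') {t s o : V} (ht : t ∈ Q) (hs : s ∈ Q) (ho : o ∈ Q) (hts : t ≠ s) (hto : t ≠ o)
    (hso : s ≠ o) (h1 : G.Adj t a) (h2 : G.Adj b s) (h3 : G.Adj s u) (h4 : G.Adj u' o) : False := by
  have hne : ∀ {x}, x ∈ Q → x ≠ a ∧ x ≠ w ∧ x ≠ b ∧ x ≠ u ∧ x ≠ u' := fun hx =>
    ⟨fun e => ha (e ▸ hx), fun e => hw (e ▸ hx), fun e => hb (e ▸ hx), fun e => hu (e ▸ hx),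
      fun e => hu' (e ▸ hx)⟩
  refine no_list hC (l := [t, a, w, b, s, u, u', o]) (u := t) (v := o)
    (by simp [h1, e₁, e₂, h2, h3, e₃, h4]) ?_ rfl rfl (hQ o ho t ht hto.symm) rfl
  simp [hne ht, (hne hs).2.2.2, (hne hs).1.symm, (hne hs).2.1.symm, (hne hs).2.2.1.symm,
    (hne ho).1.symm, (hne ho).2.1.symm, (hne ho).2.2.1.symm, (hne ho).2.2.2.1.symm,
    (hne ho).2.2.2.2.symm, hab, hau, hau', hwu, hwu', hbu, hbu', e₁.ne, e₂.ne, e₃.ne, hts, hto, hso]

variable [Fintype V] {r : ℕ}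

/-- No `K_4` has all its vertices at distance two from a vertex outside it. -/
theorem no_two_step (h : FCtx G 7 r)
    (hcl : ∀ C : Finset V, (∀ x ∈ C, ∀ y ∈ C, x ≠ y → G.Adj x y) → C.card ≤ 4) {C : Finset V}
    (hC : ∀ x ∈ C, ∀ y ∈ C, x ≠ y → G.Adj x y) (hCc : C.card = 4) {w : V} (hw : w ∉ C)
    (hwn : ∀ c ∈ C, ¬G.Adj w c) (hE : ∀ p ∈ C, ∃ e, G.Adj p e ∧ G.Adj e w) : False := by
  classical
  have hr : al G univ ≤ 7 := h.hal.trans h.hk
  have hnC : ∀ e, G.Adj e w → e ∉ C := fun e he hc => hwn e hc he.symm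
  have hw' : ∀ z c, c ∈ C → G.Adj z c → z ≠ w := fun z c hc hz e => hwn c hc (e ▸ hz)
  have others : ∀ p ∈ C, ∀ q ∈ C, p ≠ q → ∃ r' ∈ C, ∃ s ∈ C, r' ≠ p ∧ r' ≠ q ∧ s ≠ p ∧ s ≠ q ∧
      r' ≠ s ∧ ∀ x ∈ C, x = p ∨ x = q ∨ x = r' ∨ x = s := by
    intro p hp q hq hpq
    obtain ⟨r', hr', rp, rq, -⟩ := exists_avoid (S := C) p q p (by omega)
    obtain ⟨s, hs, sp, sq, sr⟩ := exists_avoid (S := C) p q r' (by omega)
    refine ⟨r', hr', s, hs, rp, rq, sp, sq, sr.symm, fun x hx => ?_⟩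
    have e : ({p, q, r', s} : Finset V) = C := by
      refine eq_of_subset_of_card_le (by simp [insert_subset_iff, hp, hq, hr', hs]) ?_
      rw [card_insert_of_notMem (by simp [hpq, rp.symm, sp.symm]),
        card_insert_of_notMem (by simp [rq.symm, sq.symm]), card_pair sr.symm, hCc]
    rw [← e] at hx
    simpa using hx
  have noK5 : ∀ e, e ∉ C → (∀ p ∈ C, G.Adj e p) → False := by
    intro e he hall
    have := hcl (insert e C) (by
      intro x hx y hy hxy
      rw [mem_insert] at hx hy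
      rcases hx with rfl | hx <;> rcases hy with rfl | hy
      exacts [absurd rfl hxy, hall y hy, (hall x hx).symm, hC x hx y hy hxy])
    rw [card_insert_of_notMem he] at this
    omega
  by_cases hcov : ∃ a b, G.Adj a w ∧ G.Adj b w ∧ ∀ p ∈ C, G.Adj a p ∨ G.Adj b p
  · obtain ⟨a, b, haw, hbw, hab⟩ := hcov
    have haC := hnC a haw
    have hbC := hnC b hbw
    have hne : a ≠ b := fun e => noK5 a haC fun p hp => (hab p hp).elim id fun h' => e ▸ h'
    set D : Finset V := insert a (insert b (insert w C)) with hD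
    have hCD : C ⊆ D := fun x hx => by simp [hD, hx]
    have hout' : ∀ {z}, z ∉ D → z ≠ a ∧ z ≠ b ∧ z ≠ w ∧ z ∉ C := fun hz => by
      simpa [hD] using hz
    -- a pair of ends of the path through `w` meeting a given pair once
    have pair : ∀ p ∈ C, ∀ q ∈ C, p ≠ q → ∃ x ∈ C, ∃ y ∈ C, G.Adj a x ∧ G.Adj b y ∧
        (((x = p ∨ x = q) ∧ y ≠ p ∧ y ≠ q) ∨ ((y = p ∨ y = q) ∧ x ≠ p ∧ x ≠ q)) := by
      intro p hp q hq hpq
      obtain ⟨r', hr', s, hs, rp, rq, sp, sq, -, hcase⟩ := others p hp q hq hpq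
      obtain ⟨y₀, hy₀, hby₀⟩ : ∃ y ∈ C, G.Adj b y := by
        by_contra hno
        simp only [not_exists, not_and] at hno
        exact noK5 a haC fun x hx => (hab x hx).resolve_right (hno x hx)
      by_cases hA : ∃ x ∈ C, (x = p ∨ x = q) ∧ G.Adj a x
      · obtain ⟨x, hx, hxe, hax⟩ := hA
        by_cases hB : ∃ y ∈ C, y ≠ p ∧ y ≠ q ∧ G.Adj b y
        · obtain ⟨y, hy, y1, y2, hby⟩ := hB
          exact ⟨x, hx, y, hy, hax, hby, Or.inl ⟨hxe, y1, y2⟩⟩
        · simp only [not_exists, not_and] at hB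
          refine ⟨r', hr', y₀, hy₀, (hab r' hr').resolve_right (hB r' hr' rp rq), hby₀,
            Or.inr ⟨?_, rp, rq⟩⟩
          by_contra hc
          simp only [not_or] at hc
          exact hB y₀ hy₀ hc.1 hc.2 hby₀
      · simp only [not_exists, not_and] at hA
        obtain ⟨x, hx, hax⟩ : ∃ x ∈ C, G.Adj a x := by
          by_contra hno
          simp only [not_exists, not_and] at hno
          exact noK5 b hbC fun x hx => (hab x hx).resolve_left (hno x hx)
        exact ⟨x, hx, p, hp, hax, (hab p hp).resolve_left (hA p hp (Or.inl rfl)),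
          Or.inr ⟨Or.inl rfl, fun e => hA x hx (Or.inl e) hax, fun e => hA x hx (Or.inr e) hax⟩⟩
    have one : ∀ z ∉ D, ∀ p ∈ C, ∀ q ∈ C, p ≠ q → G.Adj z p → ¬G.Adj z q := by
      intro z hz p hp q hq hpq h1 h2
      obtain ⟨z1, z2, z3, z4⟩ := hout' hz
      obtain ⟨x, hx, y, hy, hax, hby, hc⟩ := pair p hp q hq hpq
      rcases ears_eight h.hC hC hCc z4 haC hw hbC z1 z3 z2 hne haw hbw.symm hp hq hx hy hpq (by
          rcases hc with ⟨e | e, h1, h2⟩ | ⟨e | e, h1, h2⟩ <;> subst e <;>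
            first | exact Ne.symm h1 | exact Ne.symm h2 | exact h1 | exact h2)
        h1 h2 hax.symm hby with ⟨e1, e2⟩ | ⟨e1, e2⟩ <;>
        rcases hc with ⟨-, h1, h2⟩ | ⟨-, h1, h2⟩ <;>
          first | exact h1 e1.symm | exact h2 e2.symm
    have two : ∀ p ∈ C, ∀ q ∈ C, p ≠ q → NoEar G D p q 2 := by
      intro p hp q hq hpq l u' v' hl hlD hlen h1 h2
      obtain ⟨u, u'', rfl⟩ := List.length_eq_two.1 hlen
      obtain ⟨hc', -, hh, hlast⟩ := hl
      simp at hc' hh hlast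
      subst hh; subst hlast
      obtain ⟨u1, u2, u3, u4⟩ := hout' (hlD u (by simp))
      obtain ⟨v1, v2, v3, v4⟩ := hout' (hlD u'' (by simp))
      obtain ⟨x, hx, y, hy, hax, hby, hcc⟩ := pair p hp q hq hpq
      rcases hcc with ⟨e | e, y1, y2⟩ | ⟨e | e, x1, x2⟩
      · subst e
        exact ears_edge h.hC hC hbC hw haC u4 v4 hne.symm u2.symm v2.symm u3.symm v3.symm u1.symm
          v1.symm hbw haw.symm hc' hy hx hq y1 y2 hpq hby.symm hax h1 h2
      · subst e
        exact ears_edge h.hC hC hbC hw haC v4 u4 hne.symm v2.symm u2.symm v3.symm u3.symm v1.symm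
          u1.symm hbw haw.symm hc'.symm hy hx hp y2 y1 hpq.symm hby.symm hax h2.symm h1.symm
      · subst e
        exact ears_edge h.hC hC haC hw hbC u4 v4 hne u1.symm v1.symm u3.symm v3.symm u2.symm v2.symm
          haw hbw.symm hc' hx hy hq x1 x2 hpq hax.symm hby h1 h2
      · subst e
        exact ears_edge h.hC hC haC hw hbC v4 u4 hne v1.symm u1.symm v3.symm u3.symm v2.symm u2.symm
          haw hbw.symm hc'.symm hx hy hp x2 x1 hpq.symm hax.symm hby h2.symm h1.symm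
    have three : ∀ p ∈ C, ∀ q ∈ C, p ≠ q → NoEar G D p q 3 := by
      intro p hp q hq hpq l u' v' hl hlD hlen h1 h2
      obtain ⟨u, m, u'', rfl⟩ := List.length_eq_three.1 hlen
      obtain ⟨hc', hn, hh, hlast⟩ := hl
      simp at hc' hn hh hlast
      subst hh; subst hlast
      obtain ⟨u1, u2, -, u4⟩ := hout' (hlD u (by simp))
      obtain ⟨m1, m2, -, m4⟩ := hout' (hlD m (by simp))
      obtain ⟨v1, v2, -, v4⟩ := hout' (hlD u'' (by simp))
      obtain ⟨r', hr', s, hs, rp, rq, sp, sq, hrs, -⟩ := others p hp q hq hpq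
      obtain ⟨z, hz, zu, zm, zv, x, hx, y, hy, hxy, hzx, hzy, hx'⟩ : ∃ z, z ∉ C ∧ z ≠ u ∧ z ≠ m ∧
          z ≠ u'' ∧ ∃ x ∈ C, ∃ y ∈ C, x ≠ y ∧ G.Adj z x ∧ G.Adj z y ∧ x ≠ p ∧ x ≠ q := by
        rcases hab r' hr' with ra | rb
        · rcases hab p hp with pa | pb
          · exact ⟨a, haC, u1.symm, m1.symm, v1.symm, r', hr', p, hp, rp, ra, pa, rp, rq⟩
          · rcases hab s hs with sa' | sb'
            · exact ⟨a, haC, u1.symm, m1.symm, v1.symm, r', hr', s, hs, hrs, ra, sa', rp, rq⟩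
            · exact ⟨b, hbC, u2.symm, m2.symm, v2.symm, s, hs, p, hp, sp, sb', pb, sp, sq⟩
        · rcases hab p hp with pa | pb
          · rcases hab s hs with sa' | sb'
            · exact ⟨a, haC, u1.symm, m1.symm, v1.symm, s, hs, p, hp, sp, sa', pa, sp, sq⟩
            · exact ⟨b, hbC, u2.symm, m2.symm, v2.symm, r', hr', s, hs, hrs, rb, sb', rp, rq⟩
          · exact ⟨b, hbC, u2.symm, m2.symm, v2.symm, r', hr', p, hp, rp, rb, pb, rp, rq⟩
      rcases ears_eight h.hC hC hCc hz u4 m4 v4 zu zm zv hn.1.2 hc'.1 hc'.2 hx hy hp hq hxy hpq hzx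
        hzy h1 h2 with ⟨e, -⟩ | ⟨e, -⟩
      exacts [hx'.1 e, hx'.2 e]
    have four : ∀ p ∈ C, ∀ q ∈ C, p ≠ q → NoEar G D p q 4 := fun p hp q hq hpq =>
      noEar_of_clique h.hC hC hCD hp hq hpq (by omega) (by omega)
    have hex : ∀ p ∈ C, (out G D p).Nonempty := fun p hp => card_pos.1 (by
      have := card_out_ins h.degree D p
      have : (ins G D p).card ≤ 5 := by
        refine (card_le_card (t := insert a (insert b (C.erase p))) fun x hx => ?_).trans ?_
        · obtain ⟨h1, h2⟩ := mem_ins.1 hx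
          simp only [hD, mem_insert] at h1 ⊢
          rcases h1 with rfl | rfl | rfl | h1
          exacts [Or.inl rfl, Or.inr (Or.inl rfl), absurd h2.symm (hwn p hp),
            Or.inr (Or.inr (mem_erase.2 ⟨h2.ne.symm, h1⟩))]
        · refine (card_insert_le _ _).trans ?_
          have := card_insert_le b (C.erase p)
          rw [card_erase_of_mem hp] at this
          omega
      omega)
    choose o ho using hex
    set W := C.attach.image fun p => o p.1 p.2 with hW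
    have hWc : W.card = 4 := by
      rw [hW, card_image_of_injective _ fun p q e => ?_, card_attach, hCc]
      refine Subtype.ext ?_
      by_contra hpq
      obtain ⟨h1, h2⟩ := mem_out.1 (ho p.1 p.2)
      obtain ⟨h3, -⟩ := mem_out.1 (ho q.1 q.2)
      exact one _ h2 p.1 p.2 q.1 q.2 hpq h1.symm (show G.Adj (o p.1 p.2) q.1 from
        (show o p.1 p.2 = o q.1 q.2 from e) ▸ h3.symm)
    have hm : ∀ t ∈ W, ∃ p ∈ C, G.Adj p t ∧ t ∉ D := fun t ht => by
      obtain ⟨p, -, rfl⟩ := mem_image.1 ht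
      exact ⟨p.1, p.2, mem_out.1 (ho _ _)⟩
    have hT := weigh h.degree hcl (D := D) W W subset_rfl
      (fun t ht => by obtain ⟨p, -, -, h'⟩ := hm t ht; exact h')
      (fun t ht t' ht' hne' => by
        obtain ⟨p, hp, h1, h2⟩ := hm t ht
        obtain ⟨q, hq, h3, h4⟩ := hm t' ht'
        obtain ⟨p', -, rfl⟩ := mem_image.1 ht
        obtain ⟨q', -, rfl⟩ := mem_image.1 ht'
        have hpq : p'.1 ≠ q'.1 := fun e => hne'
          (congrArg (fun t : {x // x ∈ C} => o t.1 t.2) (Subtype.ext e))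
        obtain ⟨a1, a2⟩ := mem_out.1 (ho p'.1 p'.2)
        obtain ⟨b1, b2⟩ := mem_out.1 (ho q'.1 q'.2)
        exact ⟨fun e => two _ p'.2 _ q'.2 hpq _ _ _ (isP_two e) (by simp [a2, b2]) rfl a1 b1.symm,
          p'.1, q'.1, three _ p'.2 _ q'.2 hpq, four _ p'.2 _ q'.2 hpq, a1, b1.symm⟩)
      (fun t ht => by
        obtain ⟨p, hp, h1, h2⟩ := hm t ht
        obtain ⟨t1, t2, t3, t4⟩ := hout' h2
        obtain ⟨r', hr', rp, -, -⟩ := exists_avoid (S := C) p p p (by omega)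
        have block : ∀ c c', G.Adj c w → G.Adj c' w → c ∉ C → c' ∉ C → c ≠ c' → t ≠ c → t ≠ c' →
            (∀ x ∈ C, G.Adj c x ∨ G.Adj c' x) → G.Adj c p → ¬G.Adj t c := by
          intro c c' hc1 hc2 hcC hc'C hcc tc tc' hall hcp htc
          obtain ⟨y, hy, hyp, hyc⟩ : ∃ y ∈ C, y ≠ p ∧ G.Adj c' y := by
            by_contra hno
            simp only [not_exists, not_and] at hno
            refine noK5 c hcC fun x hx => ?_
            by_cases e : x = p
            · exact e ▸ hcp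
            · exact (hall x hx).resolve_right (hno x hx e)
          obtain ⟨r₁, hr₁, s, hs, a1, a2, a3, a4, a5, -⟩ := others p hp y hy hyp.symm
          have hne : ∀ {x}, x ∈ C → x ≠ t ∧ x ≠ c ∧ x ≠ w ∧ x ≠ c' := fun hx =>
            ⟨fun e => t4 (e ▸ hx), fun e => hcC (e ▸ hx), fun e => hw (e ▸ hx),
              fun e => hc'C (e ▸ hx)⟩
          refine no_list h.hC (l := [p, t, c, w, c', y, r₁, s]) (u := p) (v := s)
            (by simp [h1, htc, hc1, hc2.symm, hyc, hC y hy r₁ hr₁ a2.symm, hC r₁ hr₁ s hs a5]) ?_ rfl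
            rfl (hC s hs p hp a3) rfl
          simp [hne hp, (hne hy).1.symm, (hne hy).2.1.symm, (hne hy).2.2.1.symm, (hne hy).2.2.2.symm,
            (hne hr₁).1.symm, (hne hr₁).2.1.symm, (hne hr₁).2.2.1.symm, (hne hr₁).2.2.2.symm,
            (hne hs).1.symm, (hne hs).2.1.symm, (hne hs).2.2.1.symm, (hne hs).2.2.2.symm, hyp.symm,
            a1.symm, a2.symm, a3.symm, a4.symm, a5, t3, tc, tc', hc1.ne, hc2.ne.symm, hcc]
        have hsub : ∃ c, ins G D t ⊆ {p, w, c} := by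
          rcases hab p hp with pa | pb
          · refine ⟨b, fun x hx => ?_⟩
            obtain ⟨x1, x2⟩ := mem_ins.1 hx
            simp only [hD, mem_insert] at x1
            simp only [mem_insert, mem_singleton]
            rcases x1 with rfl | rfl | rfl | x1
            · exact absurd x2 (block _ b haw hbw haC hbC hne t1 t2 hab pa)
            · exact Or.inr (Or.inr rfl)
            · exact Or.inr (Or.inl rfl)
            · by_contra hc
              simp only [not_or] at hc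
              exact one t h2 p hp x x1 (Ne.symm hc.1) h1.symm x2
          · refine ⟨a, fun x hx => ?_⟩
            obtain ⟨x1, x2⟩ := mem_ins.1 hx
            simp only [hD, mem_insert] at x1
            simp only [mem_insert, mem_singleton]
            rcases x1 with rfl | rfl | rfl | x1
            · exact Or.inr (Or.inr rfl)
            · exact absurd x2 (block _ a hbw haw hbC haC hne.symm t2 t1
                (fun y hy => (hab y hy).symm) pb)
            · exact Or.inr (Or.inl rfl)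
            · by_contra hc
              simp only [not_or] at hc
              exact one t h2 p hp x x1 (Ne.symm hc.1) h1.symm x2
        obtain ⟨c, hc⟩ := hsub
        have := (card_le_card hc).trans card_le_three
        omega)
    omega
  simp only [not_exists, not_and, not_forall, not_or] at hcov
  choose! e he1 he2 using hE
  have heC : ∀ p ∈ C, e p ∉ C := fun p hp => hnC _ (he2 p hp)
  -- a neighbour of `w` sees at most one vertex of `C`
  have port1 : ∀ z, z ∉ C → ∀ p ∈ C, ∀ q ∈ C, p ≠ q → G.Adj z p → ¬G.Adj z q := by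
    intro z hz p hp q hq hpq h1 h2
    obtain ⟨r', hr', s, hs, rp, rq, sp, sq, hrs, hcase⟩ := others p hp q hq hpq
    by_cases hzw : G.Adj z w
    · have nr : ¬G.Adj z r' := fun hzr => by
        obtain ⟨x, hx, hxz, hxe⟩ := hcov z (e s) hzw (he2 s hs)
        rcases hcase x hx with rfl | rfl | rfl | rfl
        exacts [hxz h1, hxz h2, hxz hzr, hxe (he1 x hs).symm]
      have ns : ¬G.Adj z s := fun hzs => by
        obtain ⟨x, hx, hxz, hxe⟩ := hcov z (e r') hzw (he2 r' hr')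
        rcases hcase x hx with rfl | rfl | rfl | rfl
        exacts [hxz h1, hxz h2, hxe (he1 x hr').symm, hxz hzs]
      have hers : e r' ≠ e s := fun e' => by
        obtain ⟨x, hx, hxz, hxe⟩ := hcov z (e r') hzw (he2 r' hr')
        rcases hcase x hx with rfl | rfl | rfl | rfl
        exacts [hxz h1, hxz h2, hxe (he1 x hr').symm, hxe (e' ▸ (he1 x hs).symm)]
      rcases ears_eight h.hC hC hCc hz (heC r' hr') hw (heC s hs) (fun e' => nr (e' ▸ (he1 r' hr').symm))
        hzw.ne (fun e' => ns (e' ▸ (he1 s hs).symm)) hers (he2 r' hr') (he2 s hs).symm hp hq hr' hs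
        hpq hrs h1 h2 (he1 r' hr') (he1 s hs).symm with ⟨e', -⟩ | ⟨e', -⟩
      exacts [rp e'.symm, sp e'.symm]
    · have ne' : ∀ x ∈ C, z ≠ e x := fun x hx e' => hzw (e' ▸ he2 x hx)
      by_cases hers : e r' = e s
      · -- then some pair through `p`
        obtain ⟨x, hx, hxa, -⟩ := hcov (e r') (e r') (he2 r' hr') (he2 r' hr')
        have hxne : e x ≠ e r' := fun e' => hxa (e' ▸ (he1 x hx).symm)
        have hxr : r' ≠ x := fun e' => hxne (congrArg e e'.symm)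
        rcases ears_eight h.hC hC hCc hz (heC r' hr') hw (heC x hx) (ne' r' hr') (hw' z p hp h1)
          (ne' x hx) hxne.symm (he2 r' hr') (he2 x hx).symm hp hq hr' hx hpq hxr h1 h2 (he1 r' hr')
          (he1 x hx).symm with ⟨e', -⟩ | ⟨-, e'⟩
        exacts [rp e'.symm, rq e'.symm]
      rcases ears_eight h.hC hC hCc hz (heC r' hr') hw (heC s hs) (ne' r' hr') (hw' z p hp h1)
        (ne' s hs) hers (he2 r' hr') (he2 s hs).symm hp hq hr' hs hpq hrs h1 h2 (he1 r' hr')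
        (he1 s hs).symm with ⟨e', -⟩ | ⟨e', -⟩
      exacts [rp e'.symm, sp e'.symm]
  have hee : ∀ p ∈ C, ∀ z, z ∉ C → G.Adj p z → ∀ x ∈ C, x ≠ p → z ≠ e x := fun p hp z hz h1 x hx hxp e' =>
    port1 z hz p hp x hx hxp.symm h1.symm (e' ▸ (he1 x hx).symm)
  have hno2 : ∀ p ∈ C, ∀ q ∈ C, p ≠ q → ∀ u ∈ out G C p, ∀ u' ∈ out G C q, ¬G.Adj u u' := by
    intro p hp q hq hpq u hu u' hu' huu
    obtain ⟨h1, u4⟩ := mem_out.1 hu
    obtain ⟨h2, v4⟩ := mem_out.1 hu'
    obtain ⟨r', hr', s, hs, rp, rq, sp, sq, hrs, -⟩ := others p hp q hq hpq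
    have uw := hw' u p hp h1.symm
    have vw := hw' u' q hq h2.symm
    have ur := hee p hp u u4 h1 r' hr' rp
    have vr := hee q hq u' v4 h2 r' hr' rq
    by_cases hv : G.Adj u' w
    · have hne : ∀ {x}, x ∈ C → x ≠ u ∧ x ≠ u' ∧ x ≠ w ∧ x ≠ e r' := fun hx =>
        ⟨fun e' => u4 (e' ▸ hx), fun e' => v4 (e' ▸ hx), fun e' => hw (e' ▸ hx),
          fun e' => heC r' hr' (e' ▸ hx)⟩
      refine no_list h.hC (l := [p, u, u', w, e r', r', q, s]) (u := p) (v := s)
        (by simp [h1, huu, hv, (he2 r' hr').symm, (he1 r' hr').symm, hC r' hr' q hq rq,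
          hC q hq s hs sq.symm]) ?_ rfl rfl (hC s hs p hp sp) rfl
      simp [hne hp, (hne hr').1.symm, (hne hr').2.1.symm, (hne hr').2.2.1.symm, (hne hr').2.2.2.symm,
        (hne hq).1.symm, (hne hq).2.1.symm, (hne hq).2.2.1.symm, (hne hq).2.2.2.symm,
        (hne hs).1.symm, (hne hs).2.1.symm, (hne hs).2.2.1.symm, (hne hs).2.2.2.symm, rp.symm, hpq,
        sp.symm, rq, hrs, sq.symm, huu.ne, uw, ur, vw, vr, (he2 r' hr').ne.symm]
    · have hq' : u' ≠ e q := fun e' => hv (e' ▸ he2 q hq)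
      have hqr : e r' ≠ e q := fun e' =>
        (hee r' hr' (e r') (heC r' hr') (he1 r' hr') q hq rq.symm) e'
      exact ears_edge h.hC hC (heC r' hr') hw (heC q hq) v4 u4 hqr vr.symm ur.symm vw.symm uw.symm
        hq'.symm (hee p hp u u4 h1 q hq hpq.symm).symm (he2 r' hr') (he2 q hq).symm huu.symm hr' hq hp
        rq rp hpq.symm (he1 r' hr') (he1 q hq).symm h2 h1.symm
  have hpair : ∀ p ∈ C, ∃ J, J ⊆ out G C p ∧ Indep G J ∧ J.card = 2 := by
    intro p hp
    obtain ⟨x, hx, y, hy, hne, hn⟩ : ∃ x ∈ out G C p, ∃ y ∈ out G C p, x ≠ y ∧ ¬G.Adj x y := by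
      by_contra hno
      simp only [not_exists, not_and, not_not] at hno
      have h4 := hcl (insert p (out G C p)) (by
        intro x hx y hy hxy
        rw [mem_insert] at hx hy
        rcases hx with rfl | hx <;> rcases hy with rfl | hy
        exacts [absurd rfl hxy, (mem_out.1 hy).1, (mem_out.1 hx).1.symm, hno x hx y hy hxy])
      rw [card_insert_of_notMem fun h' => (mem_out.1 h').2 hp] at h4
      have := card_out_ins h.degree C p
      have := ins_clique_le (G := G) hp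
      omega
    exact ⟨{x, y}, by simp [insert_subset_iff, hx, hy], indep_pair hn, card_pair hne⟩
  choose! J hJ1 hJ2 hJ3 using hpair
  have hs := sum_le_al (G := G) C J hJ2 fun p hp q hq hpq x hx y hy =>
    ⟨fun e' => by
      subst e'
      obtain ⟨a1, a2⟩ := mem_out.1 (hJ1 p hp hx)
      obtain ⟨b1, -⟩ := mem_out.1 (hJ1 q hq hy)
      exact port1 x a2 p hp q hq hpq a1.symm b1.symm,
    hno2 p hp q hq hpq x (hJ1 p hp hx) y (hJ1 q hq hy)⟩
  rw [sum_congr rfl hJ3, sum_const, hCc, smul_eq_mul] at hs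
  omega

end Vale.Agent.P048.Small
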