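import Vale.Agent.P048.Small.Ear
import Vale.Agent.P048.Full.CaseTwo

/-!
Layers around a vertex for `k ≤ 7`: cliques, and the bound for `k = 5`.
-/

namespace Vale.Agent.P048.Small

open Finset Vale.Agent.P048.Cycle Vale.Agent.P048.Full

variable {V : Type*} [DecidableEq V] {G : SimpleGraph V} {k r : ℕ}

/-- A clique contains paths of every length between two of its vertices. -/
theorem clique_len_path {C : Finset V} (hC : ∀ x ∈ C, ∀ y ∈ C, x ≠ y → G.Adj x y) {x y : V}
    (hx : x ∈ C) (hy : y ∈ C) (hxy : x ≠ y) {n : ℕ} (h2 : 2 ≤ n) (hn : n ≤ C.card) :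
    ∃ l, IsP G l x y ∧ l.length = n ∧ ∀ z ∈ l, z ∈ C := by
  obtain ⟨E, hEn, hEl, hEC⟩ := exists_extra C x y (n - 2) (by omega)
  obtain ⟨w, hw, hwC, hw'⟩ := clique_path hC E [x] x x (isP_singleton x) hx hEn
    (fun z hz => (hEC z hz).1) (fun z hz => by simpa using (hEC z hz).2.1)
  have hwy : w ≠ y := by
    rcases hw' with h' | rfl
    exacts [(hEC w h').2.2, hxy]
  refine ⟨_, hw.concat (hC w hwC y hy hwy) ?_, by simp [hEl]; omega, fun z hz => ?_⟩
  · simp only [List.mem_append, List.mem_singleton, not_or]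
    exact ⟨hxy.symm, fun h' => (hEC y h').2.2 rfl⟩
  · simp only [List.mem_append, List.mem_singleton] at hz
    rcases hz with (rfl | hz) | rfl
    exacts [hx, (hEC z hz).1, hy]

variable [Fintype V]

/-- A clique in a layer has a common neighbour or sits at distance two from one vertex. -/
theorem layer_clique (h : FCtx G k r) {v : V} {i : ℕ} (hi1 : 1 ≤ i) (hi : i ≤ 3) (hi2 : 2 * i ≤ k)
    {C : Finset V} (hCS : C ⊆ layer G {v} i) (hC : ∀ x ∈ C, ∀ y ∈ C, x ≠ y → G.Adj x y)
    (hC2 : 2 ≤ C.card) (hk : k ≤ C.card + 4) :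
    (∃ a, a ∉ C ∧ ∀ x ∈ C, G.Adj a x) ∨ (C.card + 2 < k ∧
      ∃ w, w ∉ C ∧ (∀ c ∈ C, ¬G.Adj w c) ∧ ∀ p ∈ C, ∃ e, G.Adj p e ∧ G.Adj e w) := by
  classical
  have hk3 := h.hk3
  set Q : Finset V := {v} with hQdef
  have hQ : Q.Nonempty := singleton_nonempty v
  have hlev : ∀ x ∈ C, lev G Q x = i := fun x hx => by simpa [layer] using hCS hx
  obtain ⟨x₀, hx₀⟩ := card_pos.1 (show 0 < C.card by omega)
  have hroot : ∀ x ∈ C, ∀ y ∈ C, (par G Q)^[i] x = (par G Q)^[i] y := by
    have hv : ∀ x ∈ C, (par G Q)^[i] x = v := fun x hx => by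
      rw [← mem_singleton, ← hQdef, ← h.lev_zero hQ, h.anc_lev hQ i (by rw [hlev x hx]), hlev x hx,
        Nat.sub_self]
    intro x hx y hy
    rw [hv x hx, hv y hy]
  have hex : ∃ j, ∀ x ∈ C, ∀ y ∈ C, (par G Q)^[j] x = (par G Q)^[j] y := ⟨i, hroot⟩
  set j := Nat.find hex with hjdef
  have hj := Nat.find_spec hex
  have hji : j ≤ i := Nat.find_min' hex hroot
  have hj0 : j ≠ 0 := by
    intro e
    rw [← hjdef, e] at hj
    simp only [Function.iterate_zero, id] at hj
    obtain ⟨a, ha, b, hb, hab⟩ := one_lt_card.mp (show 1 < C.card by omega)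
    exact hab (hj a ha b hb)
  have hpar : ∀ x ∈ C, G.Adj (par G Q x) x ∧ lev G Q (par G Q x) + 1 = i := fun x hx => by
    obtain ⟨h1, h2⟩ := h.par_spec hQ (v := x) (by rw [hlev x hx]; omega)
    exact ⟨h2, by rw [hlev x hx] at h1; exact h1⟩
  by_cases hj1 : j = 1
  · rw [← hjdef, hj1] at hj
    refine Or.inl ⟨par G Q x₀, fun hc => ?_, fun x hx => ?_⟩
    · have := (hpar x₀ hx₀).2
      rw [hlev _ hc] at this
      omega
    · have := hj x₀ hx₀ x hx
      simp only [Function.iterate_one] at this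
      rw [this]
      exact (hpar x hx).1
  obtain ⟨a, ha, b, hb, hab⟩ : ∃ a ∈ C, ∃ b ∈ C, (par G Q)^[j - 1] a ≠ (par G Q)^[j - 1] b := by
    by_contra hc
    simp only [not_exists, not_and, ne_eq, not_not] at hc
    exact Nat.find_min hex (show j - 1 < j by omega) hc
  have hne : a ≠ b := fun e => hab (by rw [e])
  have long : k + 2 ≤ C.card + 2 * j → False := by
    intro hlong
    obtain ⟨l, hl, hlen, hlC⟩ := clique_len_path hC ha hb hne (n := k + 2 - 2 * j) (by omega)
      (by omega)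
    have hlink : G.Adj ((par G Q)^[j] b) ((par G Q)^[j - 1] a) := by
      rw [hj b hb a ha]
      have := h.anc_adj hQ (v := a) (d := j - 1) (by rw [hlev a ha]; omega)
      rwa [Nat.sub_add_cancel (by omega)] at this
    have := h.close_anc hQ hl (fun x hx => hCS (hlC x hx)) (a := j) (b := j - 1) (by omega)
      (by omega) hji (by omega) hlink hab
    rw [hlen] at this
    exact h.hC (by convert this using 1; omega)
  have hj2 : j = 2 := by
    by_contra hh
    exact long (by omega)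
  have hCk : C.card + 2 < k := by
    by_contra hh
    exact long (by omega)
  rw [← hjdef, hj2] at hj
  refine Or.inr ⟨hCk, (par G Q)^[2] x₀, ?_⟩
  have hw := h.anc_lev hQ (v := x₀) 2 (by rw [hlev x₀ hx₀]; omega)
  rw [hlev x₀ hx₀] at hw
  refine ⟨fun hc => ?_, fun c hc hadj => ?_, fun p hp => ⟨par G Q p, (hpar p hp).1.symm, ?_⟩⟩
  · rw [hlev _ hc] at hw
    omega
  · have := h.lev_adj hQ hadj
    rw [hw, hlev c hc] at this
    omega
  · rw [hj x₀ hx₀ p hp]
    have := h.anc_adj hQ (v := p) (d := 1) (by rw [hlev p hp]; omega)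
    simp only [Function.iterate_succ, Function.iterate_zero, Function.comp, id] at this ⊢
    exact this.symm

/-- A triangle-free connected set with all degrees at least two and five vertices has a path on
five vertices. -/
theorem path_five {H : Finset V} (hS : Conn G H) (hd : ∀ x ∈ H, 2 ≤ degIn G H x) (hc : 5 ≤ H.card)
    (htri : ∀ a ∈ H, ∀ b ∈ H, ∀ c ∈ H, G.Adj a b → G.Adj b c → ¬G.Adj a c) :
    ∃ g, PF G g 4 ∧ ∀ i, i ≤ 4 → g i ∈ H := by
  classical
  obtain ⟨f, l, h, hfS, hmax⟩ := exists_longest (G := G) (S := H) (card_pos.1 (by omega))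
  by_cases hl : 4 ≤ l
  · exact ⟨f, ⟨fun i j hi hj => h.1 i j (by omega) (by omega), fun i hi => h.2 i (by omega)⟩,
      fun i hi => hfS i (by omega)⟩
  exfalso
  have hsub : (H.filter fun y => G.Adj (f 0) y) ⊆
      ((Icc 1 l).filter fun i => G.Adj (f 0) (f i)).image f := fun y hy => by
    obtain ⟨hy, hadj⟩ := mem_filter.1 hy
    obtain ⟨i, h1, h2, rfl⟩ := end_nbr h hfS hmax hy hadj
    exact mem_image.2 ⟨i, mem_filter.2 ⟨mem_Icc.2 ⟨h1, h2⟩, hadj⟩, rfl⟩
  have hd0 : 2 ≤ (H.filter fun y => G.Adj (f 0) y).card := by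
    have := hd _ (hfS 0 (by omega))
    unfold degIn at this
    convert this using 3
  have h2c := hd0.trans ((card_le_card hsub).trans card_image_le)
  have hno2 : 2 ≤ l → ¬G.Adj (f 0) (f 2) := fun hl2 =>
    htri _ (hfS 0 (by omega)) _ (hfS 1 (by omega)) _ (hfS 2 hl2) (h.2 0 (by omega)) (h.2 1 (by omega))
  obtain ⟨i, hi, hi1⟩ : ∃ i ∈ (Icc 1 l).filter fun i => G.Adj (f 0) (f i), i ≠ 1 :=
    exists_mem_ne (by omega) 1
  simp only [mem_filter, mem_Icc] at hi
  obtain rfl : i = 3 := by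
    by_contra hh
    obtain rfl : i = 2 := by omega
    exact hno2 (by omega) hi.2
  obtain rfl : l = 3 := by omega
  obtain ⟨g, hg, hgS⟩ := cyc_extend hS (h.sg (Nat.zero_le 3) le_rfl) hi.2.symm (fun x hx => by
    obtain ⟨n, -, hn, rfl⟩ := mem_sg.1 hx
    exact hfS n hn) (by simp; omega)
  have := hmax g _ hg hgS
  simp at this

/-- For `k = 5` without `K_4` every layer near a vertex has at most two vertices per independent
one. -/
theorem layer_five (h : FCtx G 5 r)
    (hK4 : ∀ C : Finset V, (∀ x ∈ C, ∀ y ∈ C, x ≠ y → G.Adj x y) → C.card ≤ 3) {v : V} {i : ℕ}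
    (hi1 : 1 ≤ i) (hi : 2 * i ≤ 5) : (layer G {v} i).card ≤ 2 * al G (layer G {v} i) := by
  classical
  set S := layer G {v} i with hSdef
  have htri : ∀ a ∈ S, ∀ b ∈ S, ∀ c ∈ S, G.Adj a b → G.Adj b c → ¬G.Adj a c := by
    intro a ha b hb c hc h1 h2 h3
    have hclq : ∀ x ∈ ({a, b, c} : Finset V), ∀ y ∈ ({a, b, c} : Finset V), x ≠ y → G.Adj x y := by
      intro x hx y hy hxy
      simp only [mem_insert, mem_singleton] at hx hy
      rcases hx with rfl | rfl | rfl <;> rcases hy with rfl | rfl | rfl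
      exacts [absurd rfl hxy, h1, h3, h1.symm, absurd rfl hxy, h2, h3.symm, h2.symm, absurd rfl hxy]
    have hc3 : ({a, b, c} : Finset V).card = 3 := by
      rw [card_insert_of_notMem (by simp [h1.ne, h3.ne]), card_pair h2.ne]
    rcases layer_clique h (v := v) hi1 (by omega) hi (C := {a, b, c}) (by
        simp [insert_subset_iff, ← hSdef, ha, hb, hc]) hclq (by omega) (by omega) with
      ⟨p, hp, hall⟩ | ⟨hlt, -⟩
    · have := hK4 (insert p {a, b, c}) (by
        intro x hx y hy hxy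
        rw [mem_insert] at hx hy
        rcases hx with rfl | hx <;> rcases hy with rfl | hy
        exacts [absurd rfl hxy, hall y hy, (hall x hx).symm, hclq x hx y hy hxy])
      rw [card_insert_of_notMem hp] at this
      omega
    · omega
  by_contra hcon
  have hne : S.Nonempty := card_pos.1 (by omega)
  obtain ⟨H, hHS, hm⟩ := exists_minDense (c := 2) (K := 4) (e := 1) (G := G) (S := S)
    ⟨hne, by omega⟩
  have hHd := hm.1.2
  have hal : 2 ≤ al G H := by
    by_contra hh
    have := al_pos (G := G) hm.1.1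
    have hcl := clique_of_al_le_one (show al G H ≤ 1 by omega)
    obtain ⟨T, hT, hTc⟩ := exists_subset_card_eq (show 3 ≤ H.card by omega)
    obtain ⟨a, b, c, hab, hac, hbc, rfl⟩ := card_eq_three.1 hTc
    have ha := hT (show a ∈ _ by simp)
    have hb := hT (show b ∈ _ by simp)
    have hc := hT (show c ∈ _ by simp)
    exact htri a (hHS ha) b (hHS hb) c (hHS hc) (hcl a ha b hb hab) (hcl b hb c hc hbc)
      (hcl a ha c hc hac)
  have hdeg : ∀ x ∈ H, 2 ≤ degIn G H x := fun x hx => by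
    rcases hm.deg le_rfl hx with h1 | ⟨-, h1⟩ <;> omega
  have hconn := hm.conn le_rfl
  set Q : Finset V := {v} with hQdef
  have hQ : Q.Nonempty := singleton_nonempty v
  have hlev : ∀ x ∈ H, lev G Q x = i := fun x hx => by simpa [hSdef, layer] using hHS hx
  have hpar : ∀ x ∈ H, G.Adj (par G Q x) x ∧ lev G Q (par G Q x) + 1 = i := fun x hx => by
    obtain ⟨h1, h2⟩ := h.par_spec hQ (v := x) (by rw [hlev x hx]; omega)
    exact ⟨h2, by rw [hlev x hx] at h1; exact h1⟩
  by_cases hcom : ∀ x ∈ H, ∀ y ∈ H, par G Q x = par G Q y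
  · obtain ⟨g, hg, hgH⟩ := path_five hconn hdeg (by omega)
      fun a ha b hb c hc => htri a (hHS ha) b (hHS hb) c (hHS hc)
    have hp := hg.sg (Nat.zero_le 4) le_rfl
    set w := par G Q (g 0) with hwdef
    have hadj : ∀ n, n ≤ 4 → G.Adj w (g n) := fun n hn => by
      rw [hwdef, hcom _ (hgH 0 (by omega)) _ (hgH n hn)]
      exact (hpar _ (hgH n hn)).1
    refine h.hC ⟨_, _, _, hp.concat (hadj 4 le_rfl).symm ?_, hadj 0 (by omega), by simp⟩
    intro hm'
    obtain ⟨n, -, hn, e⟩ := mem_sg.1 hm'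
    exact (hadj n hn).ne e.symm
  have hi2 : i = 2 := by
    by_contra hh
    refine hcom fun x hx y hy => ?_
    have e1 : ∀ x ∈ H, par G Q x = v := fun x hx => by
      rw [← mem_singleton, ← hQdef, ← h.lev_zero hQ]
      have := (hpar x hx).2
      omega
    rw [e1 x hx, e1 y hy]
  have hgp : ∀ x ∈ H, (par G Q)^[2] x = v := fun x hx => by
    rw [← mem_singleton, ← hQdef, ← h.lev_zero hQ, h.anc_lev hQ 2 (by rw [hlev x hx, hi2]),
      hlev x hx, hi2]
  have hends : ∀ x ∈ H, ∀ y ∈ H, ∀ z ∈ H, G.Adj x y → G.Adj y z → x ≠ z → par G Q x = par G Q z := by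
    intro x hx y hy z hz h1 h2 hxz
    by_contra hne'
    have hlink : G.Adj ((par G Q)^[2] z) ((par G Q)^[1] x) := by
      rw [hgp z hz, ← hgp x hx]
      exact h.anc_adj hQ (v := x) (d := 1) (by rw [hlev x hx]; omega)
    exact h.hC (h.close_anc hQ (isP_three h1 h2 hxz) (fun w hw => by
      simp at hw
      rcases hw with rfl | rfl | rfl
      exacts [hHS hx, hHS hy, hHS hz]) (a := 2) (b := 1) (by omega) le_rfl (by omega) (by omega)
      hlink (by simpa using hne'))
  obtain ⟨a, ha, b, hb, hab, hpab⟩ : ∃ a ∈ H, ∃ b ∈ H, G.Adj a b ∧ par G Q a ≠ par G Q b := by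
    by_contra hno
    simp only [not_exists, not_and, ne_eq, not_not] at hno
    refine hcom fun x hx y hy => ?_
    obtain ⟨l, u, hl, hu, hlH, -⟩ := hconn.reach (X := {x}) (by simpa using hx)
      (singleton_nonempty x) hy
    rw [mem_singleton] at hu
    subst hu
    obtain ⟨q, hq, hq0, hqe, hqm⟩ := hl.toPF
    have key : ∀ n, n ≤ l.length - 1 → par G Q (q n) = par G Q (q 0) := by
      intro n
      induction n with
      | zero => intro _; rfl
      | succ n ih =>
        intro hn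
        rw [← ih (by omega)]
        exact (hno _ (hlH _ ((hqm _).2 ⟨n, by omega, rfl⟩)) _ (hlH _ ((hqm _).2 ⟨n + 1, hn, rfl⟩))
          (hq.2 n (by omega))).symm
    have := key _ le_rfl
    rw [hqe, hq0] at this
    exact this.symm
  set p₁ := par G Q a
  set p₂ := par G Q b
  let good : V → Prop := fun y => (par G Q y = p₁ ∧ ∃ z ∈ H, G.Adj y z ∧ par G Q z = p₂) ∨
    (par G Q y = p₂ ∧ ∃ z ∈ H, G.Adj y z ∧ par G Q z = p₁)
  have step : ∀ x ∈ H, good x → ∀ y ∈ H, G.Adj x y → good y ∧ par G Q y ≠ par G Q x := by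
    intro x hx hgx y hy hxy
    rcases hgx with ⟨e1, z, hz, hxz, e2⟩ | ⟨e1, z, hz, hxz, e2⟩ <;>
      · have ey : par G Q y = par G Q z := by
          by_cases e : y = z
          · rw [e]
          · exact hends y hy x hx z hz hxy.symm hxz e
        refine ⟨?_, by rw [ey, e2, e1]; first | exact hpab.symm | exact hpab⟩
        first
          | exact Or.inr ⟨ey.trans e2, x, hx, hxy.symm, e1⟩
          | exact Or.inl ⟨ey.trans e2, x, hx, hxy.symm, e1⟩
  have all : ∀ y ∈ H, good y := by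
    by_contra hno
    obtain ⟨x, hxA, y, hyB, hxy⟩ := hconn (H.filter good) (filter_subset _ _)
      ⟨a, mem_filter.2 ⟨ha, Or.inl ⟨rfl, b, hb, hab, rfl⟩⟩⟩ fun e => hno fun y hy => by
        rw [← e] at hy; exact (mem_filter.1 hy).2
    obtain ⟨hy1, hy2⟩ := mem_sdiff.1 hyB
    exact hy2 (mem_filter.2 ⟨hy1, (step x (mem_filter.1 hxA).1 (mem_filter.1 hxA).2 y hy1 hxy).1⟩)
  have cls : ∀ p, Indep G (H.filter fun y => par G Q y = p) := fun p x hx y hy hxy => by
    simp only [mem_filter] at hx hy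
    exact (step x hx.1 (all x hx.1) y hy.1 hxy).2 (hy.2.trans hx.2.symm)
  have h1 := le_al (S := H) (filter_subset _ _) (cls p₁)
  have h2 := le_al (S := H) (filter_subset _ _) (cls p₂)
  have h3 := card_le_card (show H ⊆ (H.filter fun y => par G Q y = p₁) ∪
      H.filter (fun y => par G Q y = p₂) from fun y hy => by
    rcases all y hy with ⟨e, -⟩ | ⟨e, -⟩ <;> simp [hy, e])
  have h4 := card_union_le (H.filter fun y => par G Q y = p₁) (H.filter fun y => par G Q y = p₂)
  omega

end Vale.Agent.P048.Small
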