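import Vale.Agent.P048.Small.K34
import Vale.Agent.P048.Small.K6
import Vale.Agent.P048.Small.K7
import Vale.Agent.P048.Full.Main9

/-!
The cycle-complete Ramsey identity for all `3 ≤ n ≤ m` other than `m = n = 3`.
-/

namespace Vale.Agent.P048.Small

open Finset Vale.Agent.P048.Cycle Vale.Agent.P048.Full

variable {V : Type*} [Fintype V] [DecidableEq V] {G : SimpleGraph V} {k r : ℕ}

theorem false_five (h : FCtx G 5 r) : False := by
  classical
  have hcl4 : ∀ C : Finset V, (∀ x ∈ C, ∀ y ∈ C, x ≠ y → G.Adj x y) → C.card ≤ 4 :=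
    fun C hC => no_clique_five h le_rfl (by omega) hC
  have hcl3 : ∀ C : Finset V, (∀ x ∈ C, ∀ y ∈ C, x ≠ y → G.Adj x y) → C.card ≤ 3 := fun C hC => by
    by_contra hh
    exact no_K4_five h hcl4 hC (by have := hcl4 C hC; omega)
  obtain ⟨v, -⟩ := h.nonempty
  refine h.no_big_false7 (by omega) v (fun K i hK _ _ hi1 hi => ?_) fun he => by omega
  have h1 := layer_five h hcl3 (v := v) hi1 hi
  have h2 := Nat.mul_le_mul_right (al G (layer G {v} i)) (show 4 ≤ K by omega)
  omega

theorem false_six (h : FCtx G 6 r) : False := by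
  classical
  have hcl4 : ∀ C : Finset V, (∀ x ∈ C, ∀ y ∈ C, x ≠ y → G.Adj x y) → C.card ≤ 4 :=
    fun C hC => no_clique_five h (by omega) (by omega) hC
  refine h.false_of_small_cliques le_rfl fun C hC => ?_
  have := hcl4 C hC
  by_contra hh
  exact no_K4_six h hcl4 hC (by omega)

theorem false_seven (h : FCtx G 7 r) : False := by
  classical
  have hcl4 : ∀ C : Finset V, (∀ x ∈ C, ∀ y ∈ C, x ≠ y → G.Adj x y) → C.card ≤ 4 :=
    fun C hC => no_clique_five h (by omega) le_rfl hC
  obtain ⟨v, -⟩ := h.nonempty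
  refine h.no_big_false7 (by omega) v (fun K i hK1 hK2 hK3 hi1 hi => ?_) fun he => by omega
  refine h.layer_bound (by omega) hK1 hK2 hi1 hi subset_rfl fun C hCS hC => ?_
  by_contra hh
  obtain ⟨D, hD, hDc⟩ := exists_subset_card_eq (show 4 ≤ C.card by omega)
  have hDC : ∀ x ∈ D, ∀ y ∈ D, x ≠ y → G.Adj x y := fun x hx y hy => hC x (hD hx) y (hD hy)
  rcases layer_clique h (v := v) hi1 (by omega) hi (hD.trans hCS) hDC (by omega) (by omega) with
    ⟨a, ha, hall⟩ | ⟨-, w, hw, hwn, hE⟩
  · have := hcl4 (insert a D) (by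
      intro x hx y hy hxy
      rw [mem_insert] at hx hy
      rcases hx with rfl | hx <;> rcases hy with rfl | hy
      exacts [absurd rfl hxy, hall y hy, (hall x hx).symm, hDC x hx y hy hxy])
    rw [card_insert_of_notMem ha] at this
    omega
  · exact no_two_step h hcl4 hDC hDc hw hwn hE

theorem false_of_counterexample (h : FCtx G k r) : False := by
  have hk3 := h.hk3
  by_cases h8 : 8 ≤ k
  · exact h.false_of_small_cliques (by omega) fun _ hC => h.no_half_clique8 h8 hC
  interval_cases k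
  exacts [false_three h, false_four h, false_five h, false_six h, false_seven h]

/-- `R(C_m, K_n) = (m-1)(n-1)+1` for all `3 ≤ n ≤ m` other than `m = n = 3`. -/
theorem ramsey_all {m n : ℕ} (hn : 3 ≤ n) (hnm : n ≤ m) (hne : ¬(m = 3 ∧ n = 3)) :
    IsLeast {N : ℕ | ∀ G : SimpleGraph (Fin N),
      (SimpleGraph.cycleGraph m).IsContained G ∨ ¬G.IndepSetFree n} ((m - 1) * (n - 1) + 1) := by
  refine ramsey_of_card_le hn (by omega) fun G hal hC => ?_
  exact card_le_of (k := m - 1) (by omega)
    (fun _ _ _ _ _ _ h => false_of_counterexample h) (n - 1) G (by omega) hal hC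

end Vale.Agent.P048.Small
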